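import Crest.Agent.R11.Basic

set_option autoImplicit false

namespace Crest.Agent.R11
open MvPolynomial

/-- `A / q` is algebraic over `ℂ[x_J]`. -/
theorem alg_isAlgebraic {ι : Type*} (q : Ideal (MvPolynomial ι ℂ)) (J : Set ι)
    (halg : ∀ i, i ∉ J → ∃ g, g ≠ 0 ∧ g ∈ q ∧ g ∈ supported ℂ (insert i J)) :
    Algebra.IsAlgebraic (supported ℂ J) (MvPolynomial ι ℂ ⧸ q) := by
  have hX : ∀ i, IsAlgebraic (supported ℂ J) (Ideal.Quotient.mk q (X i)) := fun i => by
    by_cases hi : i ∈ J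
    · exact isAlgebraic_algebraMap (R := supported ℂ J) ⟨X i, X_mem_supported.2 hi⟩
    · obtain ⟨g, hg0, hgq, hg⟩ := halg i hi
      have hle : supported ℂ (insert i J) ≤
          (Polynomial.aeval (R := supported ℂ J) (X i : MvPolynomial ι ℂ)).range.restrictScalars ℂ := by
        rw [supported_eq_adjoin_X]
        refine Algebra.adjoin_le ?_
        rintro _ ⟨j, hj | hj, rfl⟩
        · exact ⟨Polynomial.X, by simp [hj]⟩
        · exact ⟨Polynomial.C ⟨X j, X_mem_supported.2 hj⟩, by simp⟩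
      obtain ⟨P, hP⟩ := hle hg
      have hP' : Polynomial.aeval (X i : MvPolynomial ι ℂ) P = g := hP
      refine ⟨P, fun h => hg0 (by rw [← hP', h, map_zero]), ?_⟩
      have := Polynomial.aeval_algHom_apply (Ideal.Quotient.mkₐ (supported ℂ J) q) (X i) P
      rw [hP'] at this
      exact this.trans (Ideal.Quotient.eq_zero_iff_mem.2 hgq)
  refine ⟨fun b => ?_⟩
  obtain ⟨f, rfl⟩ := Ideal.Quotient.mk_surjective b
  induction f using MvPolynomial.induction_on with
  | C a => exact isAlgebraic_algebraMap (R := supported ℂ J) (algebraMap ℂ _ a)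
  | add p p' hp hp' => rw [map_add]; exact hp.add hp'
  | mul_X p i hp => rw [map_mul]; exact hp.mul (hX i)

/-- If `A / q` is algebraic over `ℂ[x_J]`, every `f ∉ q` divides a nonzero element of `ℂ[x_J]`
modulo `q`. -/
theorem alg_exists_mem {ι : Type*} [Fintype ι] [DecidableEq ι] (q : Ideal (MvPolynomial ι ℂ))
    (hqp : q.IsPrime) (J : Finset ι)
    (hJ : ∀ f ∈ supported ℂ (J : Set ι), f ∈ q → f = 0)
    (halg : ∀ i, i ∉ J → ∃ g, g ≠ 0 ∧ g ∈ q ∧ g ∈ supported ℂ (insert i (J : Set ι)))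
    (f : MvPolynomial ι ℂ) (hf : f ∉ q) :
    ∃ s ∈ supported ℂ (J : Set ι), s ≠ 0 ∧ ∃ u, s - f * u ∈ q := by
  have _ := hJ
  have hA := alg_isAlgebraic q (J : Set ι) halg
  obtain ⟨r, hr, b, hb⟩ := (hA.isAlgebraic (Ideal.Quotient.mk q f)).exists_nonzero_dvd
    (mem_nonZeroDivisors_of_ne_zero fun h => hf (Ideal.Quotient.eq_zero_iff_mem.1 h))
  obtain ⟨u, rfl⟩ := Ideal.Quotient.mk_surjective b
  refine ⟨r, r.2, fun h => hr (Subtype.ext h), u, ?_⟩
  rw [← Ideal.Quotient.eq, map_mul]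
  exact hb

/-- `A / q` has finite rank over `ℂ[x_J]`. -/
theorem alg_fin_rank {ι : Type*} [Fintype ι] [DecidableEq ι] (q : Ideal (MvPolynomial ι ℂ))
    (hqp : q.IsPrime) (J : Finset ι)
    (hJ : ∀ f ∈ supported ℂ (J : Set ι), f ∈ q → f = 0)
    (halg : ∀ i, i ∉ J → ∃ g, g ≠ 0 ∧ g ∈ q ∧ g ∈ supported ℂ (insert i (J : Set ι))) :
    ∃ T : Finset (MvPolynomial ι ℂ), ∀ g : MvPolynomial ι ℂ,
      ∃ s : supported ℂ (J : Set ι), s ≠ 0 ∧
        ∃ p ∈ Submodule.span (supported ℂ (J : Set ι)) (T : Set (MvPolynomial ι ℂ)),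
          s • g - p ∈ q := by
  classical
  have _ := hJ
  have _ := hqp
  have hA := alg_isAlgebraic q (J : Set ι) halg
  obtain ⟨r, hr, hint⟩ := Algebra.IsAlgebraic.exists_integral_multiples (supported ℂ (J : Set ι))
    (Finset.univ.image fun i => Ideal.Quotient.mk q (X i : MvPolynomial ι ℂ))
  let M := Algebra.adjoin (supported ℂ (J : Set ι))
    (Set.range fun i => r • Ideal.Quotient.mk q (X i : MvPolynomial ι ℂ))
  have hM : M.toSubmodule.FG := fg_adjoin_of_finite (Set.finite_range _) (by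
    rintro _ ⟨i, rfl⟩
    exact hint _ (Finset.mem_image_of_mem _ (Finset.mem_univ i)))
  have hN : ∀ g : MvPolynomial ι ℂ, ∃ N : ℕ, r ^ N • Ideal.Quotient.mk q g ∈ M := fun g => by
    induction g using MvPolynomial.induction_on with
    | C a => exact ⟨0, by
        rw [pow_zero, one_smul]
        exact M.algebraMap_mem (algebraMap ℂ _ a)⟩
    | add p p' hp hp' =>
      obtain ⟨N, hN⟩ := hp
      obtain ⟨N', hN'⟩ := hp'
      refine ⟨N + N', ?_⟩
      rw [map_add, smul_add]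
      refine add_mem ?_ ?_
      · rw [add_comm, pow_add, mul_smul]; exact M.smul_mem hN _
      · rw [pow_add, mul_smul]; exact M.smul_mem hN' _
    | mul_X p i hp =>
      obtain ⟨N, hN⟩ := hp
      refine ⟨N + 1, ?_⟩
      rw [map_mul, pow_succ, ← smul_mul_smul_comm]
      exact mul_mem hN (Algebra.subset_adjoin ⟨i, rfl⟩)
  obtain ⟨T', hT'⟩ := hM
  choose l hl using (Ideal.Quotient.mk_surjective (I := q))
  refine ⟨T'.image l, fun g => ?_⟩
  obtain ⟨N, hg⟩ := hN g
  have e : (Submodule.span (supported ℂ (J : Set ι))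
      ((T'.image l : Finset _) : Set (MvPolynomial ι ℂ))).map
        (Ideal.Quotient.mkₐ (supported ℂ (J : Set ι)) q).toLinearMap = M.toSubmodule := by
    rw [Submodule.map_span, ← hT', Finset.coe_image, Set.image_image]
    congr 1
    simp [hl]
  have hg' : r ^ N • Ideal.Quotient.mk q g ∈ M.toSubmodule := hg
  rw [← e] at hg'
  obtain ⟨p, hp, hpe⟩ := hg'
  refine ⟨r ^ N, pow_ne_zero N hr, p, hp, ?_⟩
  rw [← Ideal.Quotient.eq]
  exact (map_smul (Ideal.Quotient.mkₐ (supported ℂ (J : Set ι)) q) _ _).trans hpe.symm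

end Crest.Agent.R11
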