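import Crest.Agent.R11.Extract

set_option autoImplicit false

namespace Crest.Agent.R11
open MvPolynomial

/-- Tail of the exponential series. -/
theorem an_exp_tail (z : ℂ) (x : ℝ) (hz : ‖z‖ ≤ x) (n : ℕ) :
    ‖Complex.exp z - ∑ u ∈ Finset.range n, z ^ u / u.factorial‖ ≤ (1 / 2) ^ n * Real.exp (2 * x) := by
  have hs : ∀ y : ℝ, HasSum (fun u : ℕ => y ^ u / (u.factorial : ℝ)) (Real.exp y) := fun y => by
    rw [Real.exp_eq_exp_ℝ]; exact NormedSpace.expSeries_div_hasSum_exp y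
  refine (Complex.norm_exp_sub_sum_le_exp_norm_sub_sum z n).trans ?_
  have h0 : 0 ≤ ‖z‖ := norm_nonneg z
  have h1 := (hasSum_nat_add_iff' n).2 (hs ‖z‖)
  have h2 := ((hasSum_nat_add_iff' n).2 (hs (2 * x))).mul_left ((1 / 2 : ℝ) ^ n)
  refine (hasSum_le (fun u => ?_) h1 h2).trans ?_
  · rw [mul_pow, ← mul_div_assoc]
    gcongr
    have h3 : (1 : ℝ) ≤ (1 / 2) ^ n * 2 ^ (u + n) := by
      rw [pow_add, mul_left_comm, ← mul_pow]
      simpa using one_le_pow₀ (show (1 : ℝ) ≤ 2 by norm_num)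
    calc ‖z‖ ^ (u + n) ≤ 1 * x ^ (u + n) := by rw [one_mul]; gcongr
      _ ≤ ((1 / 2) ^ n * 2 ^ (u + n)) * x ^ (u + n) := by
          gcongr; exact pow_nonneg (h0.trans hz) _
      _ = _ := by ring
  · gcongr
    refine sub_le_self _ (Finset.sum_nonneg fun u _ => ?_)
    have : 0 ≤ x := h0.trans hz
    positivity

/-- The linear form attached to `c` and `lam`. -/
noncomputable def anL {β Ω : Type*} [Fintype β] [Fintype Ω] (c : β → ℤ) (lam : β → Ω → ℂ)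
    (φ : β → Ω → ℂ) : ℂ :=
  ∑ b, (c b : ℂ) * ∑ s, lam b s * φ b s

theorem anL_sum {β Ω ι : Type*} [Fintype β] [Fintype Ω] (c : β → ℤ) (lam : β → Ω → ℂ)
    (S : Finset ι) (k : ι → ℂ) (φ : ι → β → Ω → ℂ) :
    anL c lam (fun b s => ∑ i ∈ S, k i * φ i b s) = ∑ i ∈ S, k i * anL c lam (φ i) := by
  simp only [anL, Finset.mul_sum]
  rw [Finset.sum_comm (s := S)]
  refine Finset.sum_congr rfl fun b _ => ?_
  rw [Finset.sum_comm (s := S)]
  refine Finset.sum_congr rfl fun s _ => Finset.sum_congr rfl fun i _ => by ring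

theorem anL_add {β Ω : Type*} [Fintype β] [Fintype Ω] (c : β → ℤ) (lam : β → Ω → ℂ)
    (φ ψ : β → Ω → ℂ) :
    anL c lam (fun b s => φ b s + ψ b s) = anL c lam φ + anL c lam ψ := by
  simp only [anL, mul_add, Finset.sum_add_distrib]

theorem anL_smul {β Ω : Type*} [Fintype β] [Fintype Ω] (c : β → ℤ) (lam : β → Ω → ℂ)
    (k : ℂ) (φ : β → Ω → ℂ) :
    anL c lam (fun b s => k * φ b s) = k * anL c lam φ := by
  simp only [anL, Finset.mul_sum]
  refine Finset.sum_congr rfl fun b _ => Finset.sum_congr rfl fun s _ => by ring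

theorem an_sum_le {Ω : Type*} [Fintype Ω] (lam φ : Ω → ℂ) (B M : ℝ) (hM : 0 ≤ M)
    (hlam : ∑ s, ‖lam s‖ ≤ B) (hφ : ∀ s, ‖φ s‖ ≤ M) : ‖∑ s, lam s * φ s‖ ≤ B * M := by
  refine (norm_sum_le _ _).trans (le_trans ?_ (mul_le_mul_of_nonneg_right hlam hM))
  rw [Finset.sum_mul]
  refine Finset.sum_le_sum fun s _ => ?_
  rw [norm_mul]
  exact mul_le_mul_of_nonneg_left (hφ s) (norm_nonneg _)

theorem anL_le {β Ω : Type*} [Fintype β] [Fintype Ω] (c : β → ℤ) (lam : β → Ω → ℂ)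
    (φ : β → Ω → ℂ) (B H M : ℝ) (hM : 0 ≤ M) (hc : ∀ b, |(c b : ℝ)| ≤ H)
    (hlam : ∀ b, ∑ s, ‖lam b s‖ ≤ B) (hφ : ∀ b s, ‖φ b s‖ ≤ M) :
    ‖anL c lam φ‖ ≤ Fintype.card β * H * B * M := by
  refine (norm_sum_le _ _).trans ?_
  calc ∑ b, ‖(c b : ℂ) * ∑ s, lam b s * φ b s‖ ≤ ∑ _b : β, H * (B * M) := by
        refine Finset.sum_le_sum fun b _ => ?_
        rw [norm_mul, Complex.norm_intCast]
        exact mul_le_mul (hc b) (an_sum_le _ _ B M hM (hlam b) (hφ b)) (norm_nonneg _)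
          ((abs_nonneg _).trans (hc b))
    _ = _ := by simp; ring

theorem an_prod_W {m : ℕ} (W : Fin m → ℂ) (w : Fin m → ℕ) (κ ϱ : ℝ)
    (hW : ∀ i, ‖W i‖ ≤ κ * ϱ ^ w i) (I : Fin m → ℕ) :
    ‖∏ i, W i ^ I i‖ ≤ κ ^ (∑ i, I i) * ϱ ^ (∑ i, I i * w i) := by
  rw [norm_prod, ← Finset.prod_pow_eq_pow_sum, ← Finset.prod_pow_eq_pow_sum,
    ← Finset.prod_mul_distrib]
  refine Finset.prod_le_prod (fun i _ => norm_nonneg _) fun i _ => ?_
  rw [norm_pow, mul_comm (I i), pow_mul, ← mul_pow]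
  exact pow_le_pow_left₀ (norm_nonneg _) (hW i) _

/-- The estimate for a single Taylor monomial in the small variables `W`. -/
theorem an_term {m : ℕ} {β Ω : Type*} [Fintype β] [Fintype Ω] (c : β → ℤ) (lam : β → Ω → ℂ)
    (Z : β → Ω → ℂ) (W : β → Ω → Fin m → ℂ) (w : Fin m → ℕ)
    (B A κ ϱ H : ℝ) (s₃ T₀ D : ℕ)
    (hB : 0 < B) (hA : 1 ≤ A) (hκ : 1 ≤ κ) (hϱ0 : 0 < ϱ) (hϱ1 : ϱ ≤ 1) (hH : 1 ≤ H)
    (hlam : ∀ b, ∑ s, ‖lam b s‖ ≤ B) (hZ : ∀ b s, ‖Z b s‖ ≤ A)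
    (hW : ∀ b s i, ‖W b s i‖ ≤ κ * ϱ ^ w i)
    (hT : (1 / 2 : ℝ) ^ T₀ ≤ ϱ ^ s₃) (hc : ∀ b, |(c b : ℝ)| ≤ H)
    (hsmall : ∀ (I : Fin m → ℕ) (t : ℕ), ∑ i, I i * w i ≤ s₃ → t ≤ D + T₀ →
      ‖anL c lam (fun b s => (∏ i, W b s i ^ I i) * Z b s ^ t)‖ ≤
        Fintype.card β * H * B * (κ ^ (∑ i, I i) * A ^ t * ϱ ^ s₃))
    (I : Fin m → ℕ) (e j : ℕ) (he : e ≤ D) :
    ‖anL c lam (fun b s => (∏ i, W b s i ^ I i) * Z b s ^ e * Complex.exp (j * Z b s))‖ ≤
      2 * Fintype.card β * H * B * (κ ^ (∑ i, I i) * A ^ e) * Real.exp (2 * j * A) * ϱ ^ s₃ := by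
  have hA0 : 0 ≤ A := by linarith
  have hκ0 : 0 ≤ κ := by linarith
  have hH0 : 0 ≤ H := by linarith
  have hjZ : ∀ b s, ‖(j : ℂ) * Z b s‖ ≤ j * A := fun b s => by
    rw [norm_mul, Complex.norm_natCast]
    exact mul_le_mul_of_nonneg_left (hZ b s) (Nat.cast_nonneg _)
  have hjA : (0 : ℝ) ≤ j * A := by positivity
  have hexp : Real.exp (j * A) ≤ Real.exp (2 * j * A) := Real.exp_le_exp.2 (by nlinarith)
  have hZe : ∀ b s, ‖Z b s ^ e‖ ≤ A ^ e := fun b s => by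
    rw [norm_pow]; exact pow_le_pow_left₀ (norm_nonneg _) (hZ b s) _
  set M : ℝ := κ ^ (∑ i, I i) * A ^ e * Real.exp (2 * j * A) * ϱ ^ s₃ with hM
  have hM0 : 0 ≤ M := by positivity
  have hU : 0 ≤ Fintype.card β * H * B * M := by positivity
  have goal : 2 * Fintype.card β * H * B * (κ ^ (∑ i, I i) * A ^ e) * Real.exp (2 * j * A) *
      ϱ ^ s₃ = Fintype.card β * H * B * M + Fintype.card β * H * B * M := by rw [hM]; ring
  rw [goal]
  by_cases hI : ∑ i, I i * w i ≤ s₃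
  · have hsplit : (fun b s => (∏ i, W b s i ^ I i) * Z b s ^ e * Complex.exp (j * Z b s)) =
        fun b s => (∑ u ∈ Finset.range (T₀ + 1), ((j : ℂ) ^ u / u.factorial) *
          ((∏ i, W b s i ^ I i) * Z b s ^ (e + u))) + (∏ i, W b s i ^ I i) * Z b s ^ e *
          (Complex.exp (j * Z b s) -
            ∑ u ∈ Finset.range (T₀ + 1), ((j : ℂ) * Z b s) ^ u / u.factorial) := by
      funext b s
      rw [mul_sub, Finset.mul_sum]
      have : ∀ u ∈ Finset.range (T₀ + 1), ((j : ℂ) ^ u / u.factorial) *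
          ((∏ i, W b s i ^ I i) * Z b s ^ (e + u)) =
          (∏ i, W b s i ^ I i) * Z b s ^ e * (((j : ℂ) * Z b s) ^ u / u.factorial) :=
        fun u _ => by ring
      rw [Finset.sum_congr rfl this]
      ring
    rw [hsplit, anL_add, anL_sum]
    refine (norm_add_le _ _).trans (add_le_add ?_ ?_)
    · refine (norm_sum_le _ _).trans ?_
      calc ∑ u ∈ Finset.range (T₀ + 1), ‖((j : ℂ) ^ u / u.factorial) *
            anL c lam (fun b s => (∏ i, W b s i ^ I i) * Z b s ^ (e + u))‖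
          ≤ ∑ u ∈ Finset.range (T₀ + 1), ((j * A : ℝ) ^ u / u.factorial) *
            (Fintype.card β * H * B * (κ ^ (∑ i, I i) * A ^ e * ϱ ^ s₃)) := by
            refine Finset.sum_le_sum fun u hu => ?_
            have hu' := Finset.mem_range.1 hu
            rw [norm_mul, norm_div, norm_pow, Complex.norm_natCast, Complex.norm_natCast]
            refine (mul_le_mul_of_nonneg_left (hsmall I (e + u) hI (by omega))
              (by positivity)).trans (le_of_eq ?_)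
            ring
        _ ≤ Real.exp (2 * j * A) *
            (Fintype.card β * H * B * (κ ^ (∑ i, I i) * A ^ e * ϱ ^ s₃)) := by
            rw [← Finset.sum_mul]
            exact mul_le_mul_of_nonneg_right
              ((Real.sum_le_exp_of_nonneg hjA _).trans hexp) (by positivity)
        _ = _ := by rw [hM]; ring
    · refine anL_le c lam _ B H M hM0 hc hlam fun b s => ?_
      rw [norm_mul, norm_mul]
      have h1 : ‖∏ i, W b s i ^ I i‖ ≤ κ ^ (∑ i, I i) :=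
        (an_prod_W _ w κ ϱ (hW b s) I).trans
          (mul_le_of_le_one_right (by positivity) (pow_le_one₀ hϱ0.le hϱ1))
      have h2 := an_exp_tail _ _ (hjZ b s) (T₀ + 1)
      have h3 : (1 / 2 : ℝ) ^ (T₀ + 1) ≤ ϱ ^ s₃ :=
        (pow_le_pow_of_le_one (by norm_num) (by norm_num) (Nat.le_succ _)).trans hT
      have h4 : (1 / 2 : ℝ) ^ (T₀ + 1) * Real.exp (2 * (j * A)) ≤ Real.exp (2 * j * A) * ϱ ^ s₃ := by
        rw [mul_comm, ← mul_assoc]
        exact mul_le_mul_of_nonneg_left h3 (Real.exp_pos _).le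
      rw [hM, mul_assoc (κ ^ (∑ i, I i) * A ^ e)]
      exact mul_le_mul (mul_le_mul h1 (hZe b s) (norm_nonneg _) (by positivity)) (h2.trans h4)
        (norm_nonneg _) (by positivity)
  · refine le_trans (anL_le c lam _ B H M hM0 hc hlam fun b s => ?_) (le_add_of_nonneg_right hU)
    rw [norm_mul, norm_mul]
    have h1 : ‖∏ i, W b s i ^ I i‖ ≤ κ ^ (∑ i, I i) * ϱ ^ s₃ :=
      (an_prod_W _ w κ ϱ (hW b s) I).trans (mul_le_mul_of_nonneg_left
        (pow_le_pow_of_le_one hϱ0.le hϱ1 (by omega)) (by positivity))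
    have h2 : ‖Complex.exp (j * Z b s)‖ ≤ Real.exp (2 * j * A) :=
      (Complex.norm_exp_le_exp_norm _).trans ((Real.exp_le_exp.2 (hjZ b s)).trans hexp)
    refine (mul_le_mul (mul_le_mul h1 (hZe b s) (norm_nonneg _) (by positivity)) h2
      (norm_nonneg _) (by positivity)).trans (le_of_eq ?_)
    rw [hM]; ring

/-- The analytic estimate: a small integer combination of the columns is small on every row. -/
theorem analytic {m : ℕ} {β Ω : Type*} [Fintype β] [Fintype Ω] (lam : β → Ω → ℂ)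
    (Z : β → Ω → ℂ) (W : β → Ω → Fin m → ℂ) (w : Fin m → ℕ) (hw : ∀ i, 0 < w i)
    (B A κ ϱ H : ℝ) (s₃ T₀ D : ℕ)
    (hB : 0 < B) (hA : 1 ≤ A) (hκ : 1 ≤ κ) (hϱ0 : 0 < ϱ) (hϱ1 : ϱ ≤ 1) (hH : 1 ≤ H)
    (hlam : ∀ b, ∑ s, ‖lam b s‖ ≤ B) (hZ : ∀ b s, ‖Z b s‖ ≤ A)
    (hW : ∀ b s i, ‖W b s i‖ ≤ κ * ϱ ^ w i)
    (hT : (1 / 2 : ℝ) ^ T₀ ≤ ϱ ^ s₃)
    (hcard : 2 * (cnt w s₃ * (D + T₀ + 1)) < Fintype.card β)
    (hpig : ((Fintype.card β : ℝ) * (ϱ⁻¹ ^ s₃ + 1)) ^ (2 * (cnt w s₃ * (D + T₀ + 1))) ≤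
      H ^ (Fintype.card β - 2 * (cnt w s₃ * (D + T₀ + 1)))) :
    ∃ c : β → ℤ, c ≠ 0 ∧ ∀ (a : Fin m → ℕ) (j : ℕ), ∑ i, a i ≤ D →
      ‖∑ b, (c b : ℂ) * ∑ s, lam b s *
          ((∏ i, (Z b s + W b s i) ^ a i) * Complex.exp (j * Z b s))‖ ≤
        2 * Fintype.card β * H * B * (κ + A) ^ (∑ i, a i) * Real.exp (2 * j * A) * ϱ ^ s₃ := by
  classical
  have hA0 : 0 < A := by linarith
  have hκ0 : 0 < κ := by linarith
  have hH0 : 0 ≤ H := by linarith
  set S := (cnt_finite hw s₃).toFinset with hS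
  have hcardα : Fintype.card (S × Fin (D + T₀ + 1)) = cnt w s₃ * (D + T₀ + 1) := by
    rw [Fintype.card_prod, Fintype.card_coe, Fintype.card_fin, cnt,
      Set.ncard_eq_toFinset_card _ (cnt_finite hw s₃)]
  obtain ⟨c, hc0, hc, hsm⟩ := approx_siegel (α := S × Fin (D + T₀ + 1)) (β := β)
    (fun μ b => ∑ s, lam b s * ((∏ i, (W b s i / ((κ * ϱ ^ w i : ℝ) : ℂ)) ^ μ.1.1 i) *
      (Z b s / (A : ℂ)) ^ (μ.2 : ℕ))) B (ϱ⁻¹ ^ s₃) H hB
    (one_le_pow₀ ((one_le_inv₀ hϱ0).2 hϱ1)) hH (fun μ b => by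
      refine (an_sum_le _ _ B 1 zero_le_one (hlam b) fun s => ?_).trans (mul_one B).le
      rw [norm_mul, norm_prod, norm_pow]
      refine mul_le_one₀ (Finset.prod_le_one (fun i _ => norm_nonneg _) fun i _ => ?_)
        (by positivity) (pow_le_one₀ (norm_nonneg _) ?_)
      · rw [norm_pow]
        refine pow_le_one₀ (norm_nonneg _) ?_
        have : 0 < κ * ϱ ^ w i := by positivity
        rw [norm_div, Complex.norm_real, Real.norm_of_nonneg this.le, div_le_one this]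
        exact hW b s i
      · rw [norm_div, Complex.norm_real, Real.norm_of_nonneg hA0.le, div_le_one hA0]
        exact hZ b s)
    (by rw [hcardα]; exact hcard) (by rw [hcardα]; exact hpig)
  have hsmall : ∀ (I : Fin m → ℕ) (t : ℕ), ∑ i, I i * w i ≤ s₃ → t ≤ D + T₀ →
      ‖anL c lam (fun b s => (∏ i, W b s i ^ I i) * Z b s ^ t)‖ ≤
        Fintype.card β * H * B * (κ ^ (∑ i, I i) * A ^ t * ϱ ^ s₃) := by
    intro I t hI ht
    have hmem : Finsupp.equivFunOnFinite.symm I ∈ S := by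
      rw [hS, Set.Finite.mem_toFinset, Set.mem_ofPred_eq, weight_eq_sum]
      simpa using hI
    have h1 := hsm (⟨_, hmem⟩, ⟨t, by omega⟩)
    simp only [Finsupp.equivFunOnFinite_symm_apply_apply] at h1
    set k : ℝ := (∏ i, (κ * ϱ ^ w i) ^ I i) * A ^ t with hk
    have hk0 : 0 ≤ k := by positivity
    have h2 : (fun b s => (∏ i, W b s i ^ I i) * Z b s ^ t) = fun b s => (k : ℂ) *
        ((∏ i, (W b s i / ((κ * ϱ ^ w i : ℝ) : ℂ)) ^ I i) * (Z b s / (A : ℂ)) ^ t) := by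
      funext b s
      rw [hk, Complex.ofReal_mul, Complex.ofReal_prod, mul_mul_mul_comm, ← Finset.prod_mul_distrib,
        Complex.ofReal_pow, ← mul_pow, mul_div_cancel₀ _ (Complex.ofReal_ne_zero.2 hA0.ne')]
      congr 1
      refine Finset.prod_congr rfl fun i _ => ?_
      have : 0 < κ * ϱ ^ w i := by positivity
      rw [Complex.ofReal_pow, ← mul_pow, mul_div_cancel₀ _ (Complex.ofReal_ne_zero.2 this.ne')]
    have h3 : k ≤ κ ^ (∑ i, I i) * A ^ t := by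
      rw [hk, ← Finset.prod_pow_eq_pow_sum]
      refine mul_le_mul_of_nonneg_right (Finset.prod_le_prod (fun i _ => by positivity)
        fun i _ => pow_le_pow_left₀ (by positivity) ?_ _) (by positivity)
      exact mul_le_of_le_one_right hκ0.le (pow_le_one₀ hϱ0.le hϱ1)
    rw [h2, anL_smul, norm_mul, Complex.norm_real, Real.norm_of_nonneg hk0]
    refine (mul_le_mul h3 h1 (norm_nonneg _) (by positivity)).trans (le_of_eq ?_)
    rw [inv_pow, div_inv_eq_mul]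
    ring
  refine ⟨c, hc0, fun a j ha => ?_⟩
  have hexp : (fun b s => (∏ i, (Z b s + W b s i) ^ a i) * Complex.exp (j * Z b s)) =
      fun b s => ∑ I ∈ Fintype.piFinset (fun i => Finset.range (a i + 1)),
        ((∏ i, (a i).choose (I i) : ℕ) : ℂ) *
          ((∏ i, W b s i ^ I i) * Z b s ^ (∑ i, (a i - I i)) * Complex.exp (j * Z b s)) := by
    funext b s
    simp only [add_comm (Z b s), add_pow]
    rw [Finset.prod_univ_sum, Finset.sum_mul]
    refine Finset.sum_congr rfl fun I _ => ?_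
    rw [Finset.prod_mul_distrib, Finset.prod_mul_distrib, Finset.prod_pow_eq_pow_sum, Nat.cast_prod]
    ring
  change ‖anL c lam (fun b s => (∏ i, (Z b s + W b s i) ^ a i) * Complex.exp (j * Z b s))‖ ≤ _
  rw [hexp, anL_sum]
  refine (norm_sum_le _ _).trans ?_
  have hbin : (κ + A) ^ (∑ i, a i) = ∑ I ∈ Fintype.piFinset (fun i => Finset.range (a i + 1)),
      ((∏ i, (a i).choose (I i) : ℕ) : ℝ) * (κ ^ (∑ i, I i) * A ^ (∑ i, (a i - I i))) := by
    rw [← Finset.prod_pow_eq_pow_sum]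
    simp only [add_pow]
    rw [Finset.prod_univ_sum]
    refine Finset.sum_congr rfl fun I _ => ?_
    rw [Finset.prod_mul_distrib, Finset.prod_mul_distrib, Finset.prod_pow_eq_pow_sum,
      Finset.prod_pow_eq_pow_sum, Nat.cast_prod]
    ring
  rw [hbin, Finset.mul_sum, Finset.sum_mul, Finset.sum_mul]
  refine Finset.sum_le_sum fun I _ => ?_
  have he : ∑ i, (a i - I i) ≤ D := (Finset.sum_le_sum fun i _ => Nat.sub_le _ _).trans ha
  rw [norm_mul, Complex.norm_natCast]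
  refine (mul_le_mul_of_nonneg_left (an_term c lam Z W w B A κ ϱ H s₃ T₀ D hB hA hκ hϱ0 hϱ1 hH
    hlam hZ hW hT hc hsmall I _ j he) (Nat.cast_nonneg _)).trans (le_of_eq ?_)
  ring

end Crest.Agent.R11
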