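import Crest.Agent.R11.Basic

set_option autoImplicit false

namespace Crest.Agent.R11

/-- The numerical conditions on the sizes for one value of `n`. -/
def Sizes {m : ℕ} (K : ℕ) (w : Fin m → ℕ) (lamb e₁ e₂ : ℝ) (n s₁ s₂ s₃ T₀ : ℕ) (H : ℝ) : Prop :=
  1 ≤ H ∧ (1 / 2 : ℝ) ^ T₀ ≤ Real.exp (-lamb) ^ s₃ ∧
  2 * (cnt w s₃ * (n + T₀ + 1)) < K * cnt w s₁ * s₂ ∧
  (((K * cnt w s₁ * s₂ : ℕ) : ℝ) * ((Real.exp (-lamb))⁻¹ ^ s₃ + 1)) ^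
      (2 * (cnt w s₃ * (n + T₀ + 1))) ≤
    H ^ (K * cnt w s₁ * s₂ - 2 * (cnt w s₃ * (n + T₀ + 1))) ∧
  2 * ((K * cnt w s₁ * s₂ : ℕ) : ℝ) * H * Real.exp (e₂ * s₁ + lamb * s₂) *
    Real.exp ((e₁ + 1) * n) * Real.exp (-lamb) ^ s₃ < 1

end Crest.Agent.R11
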