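import Crest.Agent.R11.Count
import Crest.Agent.R11.Sizes

set_option autoImplicit false

namespace Crest.Agent.R11
open MvPolynomial Filter Topology

theorem asym_poly_le_exp (C : ℝ) (k : ℕ) {δ : ℝ} (hδ : 0 < δ) :
    ∀ᶠ n : ℕ in atTop, C * (n : ℝ) ^ k ≤ Real.exp (δ * n) := by
  have h := (isLittleO_pow_exp_pos_mul_atTop k hδ).const_mul_left C
  have h2 := tendsto_natCast_atTop_atTop (R := ℝ) |>.eventually (h.bound one_pos)
  filter_upwards [h2] with n hn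
  rw [one_mul, Real.norm_of_nonneg (Real.exp_pos _).le] at hn
  exact (le_abs_self _).trans hn

theorem asym_lin (C : ℝ) {δ : ℝ} (hδ : 0 < δ) : ∀ᶠ n : ℕ in atTop, C < δ * n :=
  (Tendsto.const_mul_atTop hδ (tendsto_natCast_atTop_atTop (R := ℝ))).eventually_gt_atTop C

theorem asym_ratio (m : ℕ) {K W c a ε x₁ x₂ : ℝ}
    (h : 2 * c * (x₁ ^ m * (1 + 2 * a)) < K * (x₂ ^ m * ε)) :
    ∀ᶠ n : ℕ in atTop,
      2 * c * ((x₁ * n + W) ^ m * (n + 2 * a * n + 2)) < K * ((x₂ * n) ^ m * (ε * n - 1)) := by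
  have h0 : Tendsto (fun n : ℕ => ((n : ℝ))⁻¹) atTop (𝓝 0) := tendsto_inv_atTop_nhds_zero_nat
  have h1 : Tendsto (fun n : ℕ => 2 * c * ((x₁ + W * (n : ℝ)⁻¹) ^ m * (1 + 2 * a + 2 * (n : ℝ)⁻¹)))
      atTop (𝓝 (2 * c * ((x₁ + W * 0) ^ m * (1 + 2 * a + 2 * 0)))) :=
    (((h0.const_mul W).const_add x₁).pow m |>.mul ((h0.const_mul 2).const_add _)).const_mul _
  have h2 : Tendsto (fun n : ℕ => K * (x₂ ^ m * (ε - (n : ℝ)⁻¹))) atTop
      (𝓝 (K * (x₂ ^ m * (ε - 0)))) := ((h0.const_sub ε).const_mul _).const_mul _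
  have h3 := h1.eventually_lt h2 (by simpa using h)
  filter_upwards [h3, eventually_gt_atTop 0] with n hn hn0
  have hn' : (0 : ℝ) < n := by exact_mod_cast hn0
  have e1 : x₁ * n + W = (x₁ + W * (n : ℝ)⁻¹) * n := by field_simp
  have e2 : (n : ℝ) + 2 * a * n + 2 = (1 + 2 * a + 2 * (n : ℝ)⁻¹) * n := by field_simp
  have e3 : ε * n - 1 = (ε - (n : ℝ)⁻¹) * n := by field_simp
  rw [e1, e2, e3, mul_pow, mul_pow]
  have := mul_lt_mul_of_pos_right hn (show (0 : ℝ) < (n : ℝ) ^ m * n by positivity)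
  calc _ = 2 * c * ((x₁ + W * (n : ℝ)⁻¹) ^ m * (1 + 2 * a + 2 * (n : ℝ)⁻¹)) * ((n : ℝ) ^ m * n) := by
        ring
    _ < _ := this
    _ = _ := by ring

/-- The sizes exist for all large `n`. -/
theorem asym {m K : ℕ} (w : Fin m → ℕ) (hw : ∀ i, 0 < w i) (lamb e₁ e₂ ε x₁ x₂ : ℝ)
    (hl : 1 ≤ lamb) (hε : 0 < ε) (hx₁ : 0 < x₁) (hx₂ : 0 < x₂) (he₂ : 0 ≤ e₂)
    (hA1 : 2 + e₁ + x₂ * e₂ + lamb * ε - lamb * x₁ < 0)
    (hA2 : (2 + 2 * lamb * x₁) * (1 + 2 * lamb * x₁) * x₁ ^ m < K * ε * x₂ ^ m) :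
    ∃ N : ℕ, ∀ n : ℕ, N ≤ n → ∃ (s₁ s₂ s₃ T₀ : ℕ) (H : ℝ),
      ((s₁ + s₂ : ℕ) : ℝ) ≤ (x₂ + ε) * n ∧ Sizes K w lamb e₁ e₂ n s₁ s₂ s₃ T₀ H := by
  have hl0 : 0 < lamb := by linarith
  set a : ℝ := lamb * x₁ with ha
  have ha0 : 0 < a := by positivity
  have hB : 0 < 2 * (x₁ ^ m * (1 + 2 * a)) := by positivity
  obtain ⟨c, hc1, hc2⟩ : ∃ c, 1 + a < c ∧
      c < K * (x₂ ^ m * ε) / (2 * (x₁ ^ m * (1 + 2 * a))) := by
    refine exists_between ?_
    rw [lt_div_iff₀ hB]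
    calc _ = (2 + 2 * lamb * x₁) * (1 + 2 * lamb * x₁) * x₁ ^ m := by rw [ha]; ring
      _ < _ := hA2
      _ = _ := by ring
  rw [lt_div_iff₀ hB] at hc2
  set γ : ℝ := -(2 + e₁ + x₂ * e₂ + lamb * ε - lamb * x₁) with hγ
  have hγ0 : 0 < γ := by linarith
  set δ : ℝ := min ((c - 1 - a) / 2) (γ / 2) with hδ
  have hδ0 : 0 < δ := lt_min (by linarith) (by linarith)
  have hδ1 : δ ≤ (c - 1 - a) / 2 := min_le_left _ _
  have hδ2 : δ ≤ γ / 2 := min_le_right _ _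
  set W : ℝ := ((∑ i, w i : ℕ) : ℝ) with hW
  have hW0 : 0 ≤ W := Nat.cast_nonneg _
  set D : ℕ := m.factorial * ∏ i, w i with hD
  have hD1 : (1 : ℝ) ≤ D := by
    have : 0 < D := Nat.mul_pos m.factorial_pos (Finset.prod_pos fun i _ => hw i)
    exact_mod_cast this
  have hlow : ∀ s : ℕ, ((s : ℝ) + 1) ^ m ≤ D * cnt w s := fun s => by
    have := cnt_lower hw s
    rw [Fintype.card_fin] at this
    exact_mod_cast this
  have hup : ∀ s : ℕ, (D : ℝ) * cnt w s ≤ ((s : ℝ) + W) ^ m := fun s => by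
    have := cnt_upper hw s
    rw [Fintype.card_fin] at this
    rw [hW]
    exact_mod_cast this
  have E1 := asym_ratio m (K := K) (W := W) (c := c) (a := a) (ε := ε) (x₁ := x₁) (x₂ := x₂)
    (by linarith)
  have E2 := asym_poly_le_exp (K * (x₂ + W) ^ m * ε) (m + 1) hδ0
  have E3 := asym_lin 1 hδ0
  have E4 := asym_lin (1 + lamb) hδ0
  obtain ⟨N, hN⟩ := eventually_atTop.1 (E1.and (E2.and (E3.and (E4.and (eventually_ge_atTop 1)))))
  refine ⟨N, fun n hn => ?_⟩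
  obtain ⟨h1, h2, h3, h4, hn1⟩ := hN n hn
  have hn1' : (1 : ℝ) ≤ n := by exact_mod_cast hn1
  set s₁ := ⌊x₂ * n⌋₊ with hs₁
  set s₂ := ⌊ε * n⌋₊ with hs₂
  set s₃ := ⌊x₁ * n⌋₊ with hs₃
  set T₀ := ⌈2 * a * n⌉₊ with hT₀
  have s₁u : (s₁ : ℝ) ≤ x₂ * n := Nat.floor_le (by positivity)
  have s₁l : x₂ * n < s₁ + 1 := Nat.lt_floor_add_one _
  have s₂u : (s₂ : ℝ) ≤ ε * n := Nat.floor_le (by positivity)
  have s₂l : ε * n < s₂ + 1 := Nat.lt_floor_add_one _
  have s₃u : (s₃ : ℝ) ≤ x₁ * n := Nat.floor_le (by positivity)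
  have s₃l : x₁ * n < s₃ + 1 := Nat.lt_floor_add_one _
  have T₀l : 2 * a * n ≤ T₀ := Nat.le_ceil _
  have T₀u : (T₀ : ℝ) < 2 * a * n + 1 := Nat.ceil_lt_add_one (by positivity)
  set U : ℕ := K * cnt w s₁ * s₂ with hU
  set M : ℕ := cnt w s₃ * (n + T₀ + 1) with hM
  have hK0 : (0 : ℝ) ≤ K := Nat.cast_nonneg K
  have hU0 : (0 : ℝ) ≤ U := Nat.cast_nonneg U
  have hM0 : (0 : ℝ) ≤ M := Nat.cast_nonneg M
  have hs₂0 : (0 : ℝ) ≤ s₂ := Nat.cast_nonneg _
  have hDU : (D : ℝ) * U = K * ((D * cnt w s₁) * s₂) := by rw [hU]; push_cast; ring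
  have hDM : (D : ℝ) * M = (D * cnt w s₃) * (n + T₀ + 1) := by rw [hM]; push_cast; ring
  have hUl : K * ((x₂ * n) ^ m * (ε * n - 1)) ≤ (D : ℝ) * U := by
    rw [hDU]
    refine mul_le_mul_of_nonneg_left ?_ hK0
    calc (x₂ * n) ^ m * (ε * n - 1) ≤ (x₂ * n) ^ m * s₂ :=
          mul_le_mul_of_nonneg_left (by linarith) (by positivity)
      _ ≤ _ := mul_le_mul_of_nonneg_right
          ((pow_le_pow_left₀ (by positivity) s₁l.le m).trans (hlow s₁)) hs₂0
  have hUu : (U : ℝ) ≤ Real.exp (δ * n) := by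
    refine le_trans ?_ h2
    calc (U : ℝ) ≤ D * U := le_mul_of_one_le_left hU0 hD1
      _ = _ := hDU
      _ ≤ K * (((x₂ + W) * n) ^ m * (ε * n)) := by
          refine mul_le_mul_of_nonneg_left ?_ hK0
          refine mul_le_mul ((hup s₁).trans (pow_le_pow_left₀ (by positivity) ?_ m)) s₂u hs₂0
            (by positivity)
          have b0 : W * 1 ≤ W * n := mul_le_mul_of_nonneg_left hn1' hW0
          linarith
      _ = _ := by rw [mul_pow, pow_succ]; ring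
  have hMu : (D : ℝ) * M ≤ (x₁ * n + W) ^ m * (n + 2 * a * n + 2) := by
    rw [hDM]
    refine mul_le_mul ((hup s₃).trans (pow_le_pow_left₀ (by positivity) (by linarith) m))
      (by linarith) (by positivity) (by positivity)
  have hc0 : 0 < c := by linarith
  have hUM : 2 * c * M < U := by
    have : (D : ℝ) * (2 * c * M) < D * U :=
      calc (D : ℝ) * (2 * c * M) = 2 * c * (D * M) := by ring
        _ ≤ _ := mul_le_mul_of_nonneg_left hMu (by positivity)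
        _ < _ := h1
        _ ≤ _ := hUl
    exact lt_of_mul_lt_mul_left this (by linarith)
  have hcard : 2 * M < U := by
    have b0 : 1 * (M : ℝ) ≤ c * M := mul_le_mul_of_nonneg_right (by linarith) hM0
    have : (2 : ℝ) * M < U := by linarith
    exact_mod_cast this
  have hls₃ : lamb * s₃ ≤ a * n := by
    rw [ha, mul_assoc]; exact mul_le_mul_of_nonneg_left s₃u hl0.le
  have hls₃' : a * n ≤ lamb * s₃ + lamb := by
    have := mul_le_mul_of_nonneg_left s₃l.le hl0.le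
    rw [ha]; linarith
  have h2e : (2 : ℝ) ≤ Real.exp 1 := by
    have := Real.add_one_le_exp (1 : ℝ)
    linarith
  refine ⟨s₁, s₂, s₃, T₀, Real.exp n, by push_cast; linarith, Real.one_le_exp (by positivity),
    ?_, hcard, ?_, ?_⟩
  · have hh : (1 / 2 : ℝ) ≤ Real.exp (-(1 / 2)) := by
      have := Real.add_one_le_exp (-(1 / 2) : ℝ)
      linarith
    refine (pow_le_pow_left₀ (by norm_num) hh T₀).trans ?_
    rw [← Real.exp_nat_mul, ← Real.exp_nat_mul]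
    exact Real.exp_le_exp.2 (by linarith)
  · have e1 : (Real.exp (-lamb))⁻¹ ^ s₃ + 1 ≤ Real.exp (a * n + 1) := by
      rw [Real.exp_neg, inv_inv, ← Real.exp_nat_mul, Real.exp_add]
      have b1 : Real.exp (s₃ * lamb) ≤ Real.exp (a * n) := Real.exp_le_exp.2 (by linarith)
      have b2 : 1 ≤ Real.exp (a * n) := Real.one_le_exp (by positivity)
      have b3 : Real.exp (a * n) * 2 ≤ Real.exp (a * n) * Real.exp 1 :=
        mul_le_mul_of_nonneg_left h2e (by positivity)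
      linarith
    have e2 : (U : ℝ) * ((Real.exp (-lamb))⁻¹ ^ s₃ + 1) ≤ Real.exp (δ * n + (a * n + 1)) := by
      rw [Real.exp_add]
      exact mul_le_mul hUu e1 (by positivity) (by positivity)
    refine (pow_le_pow_left₀ (by positivity) e2 _).trans ?_
    rw [← Real.exp_nat_mul, ← Real.exp_nat_mul]
    refine Real.exp_le_exp.2 ?_
    rw [Nat.cast_sub hcard.le, ← hM, Nat.cast_mul, Nat.cast_ofNat]
    have b0 : 2 * δ * n ≤ (c - 1 - a) * n :=
      mul_le_mul_of_nonneg_right (by linarith) (by positivity)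
    have b1 : δ * n + (a * n + 1) ≤ (c - 1) * n := by linarith
    have b2 : 2 * (M : ℝ) * (δ * n + (a * n + 1)) ≤ 2 * M * ((c - 1) * n) :=
      mul_le_mul_of_nonneg_left b1 (by positivity)
    have b3 : 2 * c * M * n ≤ U * n := mul_le_mul_of_nonneg_right hUM.le (by positivity)
    linarith
  · rw [← Real.exp_nat_mul]
    calc 2 * (U : ℝ) * Real.exp n * Real.exp (e₂ * s₁ + lamb * s₂) * Real.exp ((e₁ + 1) * n) *
          Real.exp (s₃ * -lamb)
        ≤ Real.exp 1 * Real.exp (δ * n) * Real.exp n * Real.exp (e₂ * s₁ + lamb * s₂) *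
          Real.exp ((e₁ + 1) * n) * Real.exp (s₃ * -lamb) := by gcongr
      _ = Real.exp (1 + δ * n + n + (e₂ * s₁ + lamb * s₂) + (e₁ + 1) * n + s₃ * -lamb) := by
          simp only [Real.exp_add]
      _ < 1 := by
          rw [Real.exp_lt_one_iff]
          have b1 : e₂ * s₁ ≤ e₂ * (x₂ * n) := mul_le_mul_of_nonneg_left s₁u he₂
          have b2 : lamb * s₂ ≤ lamb * (ε * n) := mul_le_mul_of_nonneg_left s₂u hl0.le
          have b3 : 2 * δ * n ≤ γ * n := mul_le_mul_of_nonneg_right (by linarith) (by positivity)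
          have b4 : γ * n = -(2 * n + e₁ * n + e₂ * (x₂ * n) + lamb * (ε * n) - a * n) := by
            rw [hγ]; ring
          linarith

end Crest.Agent.R11
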