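import Crest.Agent.R11.Defs

set_option autoImplicit false

namespace Crest.Agent.R11
open MvPolynomial

/-! Basic facts on `Deg` and `Ord`. -/

theorem Deg_mono {σ : Type*} (w : σ → ℕ) : Monotone (Deg w) :=
  fun _ _ h _ hf => mem_Deg.2 fun d hd => (mem_Deg.1 hf d hd).trans h

theorem Deg_mul {σ : Type*} {w : σ → ℕ} {a b : ℕ} {f g : MvPolynomial σ ℂ} (hf : f ∈ Deg w a)
    (hg : g ∈ Deg w b) : f * g ∈ Deg w (a + b) := by
  classical
  refine mem_Deg.2 fun d hd => ?_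
  rw [coeff_mul] at hd
  obtain ⟨⟨i, j⟩, hij, e⟩ := Finset.exists_ne_zero_of_sum_ne_zero hd
  rw [← Finset.HasAntidiagonal.mem_antidiagonal.1 hij, map_add]
  exact add_le_add (mem_Deg.1 hf _ (left_ne_zero_of_mul e)) (mem_Deg.1 hg _ (right_ne_zero_of_mul e))

theorem Deg_exists {σ : Type*} (w : σ → ℕ) (f : MvPolynomial σ ℂ) : ∃ n, f ∈ Deg w n :=
  ⟨f.support.sup (Finsupp.weight w), mem_Deg.2 fun _ hd => Finset.le_sup (mem_support_iff.2 hd)⟩

theorem monomial_mem_Deg {σ : Type*} {w : σ → ℕ} {n : ℕ} {a : σ →₀ ℕ} (c : ℂ)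
    (ha : Finsupp.weight w a ≤ n) : monomial a c ∈ Deg w n := by
  classical
  refine mem_Deg.2 fun d hd => ?_
  rw [coeff_monomial] at hd
  split_ifs at hd with h
  · exact h ▸ ha
  · exact absurd rfl hd

theorem C_mem_Deg {σ : Type*} (w : σ → ℕ) (n : ℕ) (c : ℂ) : (C c : MvPolynomial σ ℂ) ∈ Deg w n :=
  monomial_mem_Deg c (by simp)

theorem X_mem_Deg {σ : Type*} (w : σ → ℕ) (i : σ) : (X i : MvPolynomial σ ℂ) ∈ Deg w (w i) :=
  monomial_mem_Deg 1 (by simp [Finsupp.weight_single])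

theorem Deg_eq_span {σ : Type*} (w : σ → ℕ) (n : ℕ) :
    Deg w n = Submodule.span ℂ ((monomial · (1 : ℂ)) '' {d | Finsupp.weight w d ≤ n}) :=
  restrictSupport_eq_span _ _

theorem Ord_anti {σ : Type*} (w : σ → ℕ) : Antitone (Ord w) :=
  fun _ _ h _ hf => mem_Ord.2 fun d hd => mem_Ord.1 hf d (lt_of_lt_of_le hd h)

theorem Ord_zero {σ : Type*} (w : σ → ℕ) (f : MvPolynomial σ ℂ) : f ∈ Ord w 0 :=
  mem_Ord.2 fun _ h => absurd h (Nat.not_lt_zero _)

theorem Ord_mul {σ : Type*} {w : σ → ℕ} {a b : ℕ} {f g : MvPolynomial σ ℂ} (hf : f ∈ Ord w a)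
    (hg : g ∈ Ord w b) : f * g ∈ Ord w (a + b) := by
  classical
  refine mem_Ord.2 fun d hd => ?_
  rw [coeff_mul]
  refine Finset.sum_eq_zero fun ⟨i, j⟩ hij => ?_
  rw [← Finset.HasAntidiagonal.mem_antidiagonal.1 hij, map_add] at hd
  by_cases hi : Finsupp.weight w i < a
  · simp [mem_Ord.1 hf i hi]
  · simp [mem_Ord.1 hg j (by simp at hd; omega)]

theorem Ord_pow {σ : Type*} {w : σ → ℕ} {a : ℕ} {f : MvPolynomial σ ℂ} (hf : f ∈ Ord w a)
    (n : ℕ) : f ^ n ∈ Ord w (n * a) := by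
  induction n with
  | zero => simpa using Ord_zero w 1
  | succ n ih => rw [pow_succ, add_mul, one_mul]; exact Ord_mul ih hf

theorem monomial_mem_Ord {σ : Type*} {w : σ → ℕ} {t : ℕ} {a : σ →₀ ℕ} (c : ℂ)
    (ha : t ≤ Finsupp.weight w a) : monomial a c ∈ Ord w t := by
  classical
  refine mem_Ord.2 fun d hd => ?_
  rw [coeff_monomial]
  split_ifs with h
  · subst h; omega
  · rfl

theorem X_mem_Ord {σ : Type*} (w : σ → ℕ) (i : σ) : (X i : MvPolynomial σ ℂ) ∈ Ord w (w i) :=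
  monomial_mem_Ord 1 (by simp [Finsupp.weight_single])

theorem pderiv_mem_Deg {σ : Type*} {w : σ → ℕ} {n : ℕ} {f : MvPolynomial σ ℂ} (i : σ)
    (hf : f ∈ Deg w n) : pderiv i f ∈ Deg w (n - w i) := by
  classical
  refine mem_Deg.2 fun d hd => ?_
  rw [coeff_pderiv] at hd
  have := mem_Deg.1 hf _ (left_ne_zero_of_mul hd)
  simp [Finsupp.weight_single] at this
  omega

theorem X_mul_pderiv_mem_Deg {σ : Type*} {w : σ → ℕ} {n : ℕ} {f : MvPolynomial σ ℂ} (i : σ)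
    (hf : f ∈ Deg w n) : X i * pderiv i f ∈ Deg w n := by
  classical
  refine mem_Deg.2 fun d hd => ?_
  rw [coeff_X_mul'] at hd
  split_ifs at hd with h
  · rw [coeff_pderiv] at hd
    have := mem_Deg.1 hf _ (left_ne_zero_of_mul hd)
    rwa [tsub_add_cancel_of_le (by simpa [Finsupp.single_le_iff, Nat.one_le_iff_ne_zero] using h)]
      at this
  · exact absurd rfl hd

theorem pderiv_mem_Ord {σ : Type*} {w : σ → ℕ} {t : ℕ} {f : MvPolynomial σ ℂ} (i : σ)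
    (hf : f ∈ Ord w t) : pderiv i f ∈ Ord w (t - w i) := by
  classical
  refine mem_Ord.2 fun d hd => ?_
  rw [coeff_pderiv, mem_Ord.1 hf _ (by simp [Finsupp.weight_single]; omega), zero_mul]

theorem DD_mem_Deg {m : ℕ} (Q : Fin m → ℂ) {w : Fin (m + 1) → ℕ} {n : ℕ}
    {f : MvPolynomial (Fin (m + 1)) ℂ} (i : Fin (m + 1)) (hf : f ∈ Deg w n) :
    DD Q i f ∈ Deg w n := by
  refine Fin.cases ?_ (fun j => ?_) i
  · rw [DD_zero, delta_apply]
    refine (Deg w n).add_mem (X_mul_pderiv_mem_Deg 0 hf) (Submodule.sum_mem _ fun j _ => ?_)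
    rw [C_mul']
    exact (Deg w n).smul_mem _ (Deg_mono w (Nat.sub_le _ _) (pderiv_mem_Deg _ hf))
  · exact Deg_mono w (Nat.sub_le _ _) (pderiv_mem_Deg _ hf)

theorem wordD_mem_Deg {m : ℕ} (Q : Fin m → ℂ) {w : Fin (m + 1) → ℕ} {n : ℕ}
    {f : MvPolynomial (Fin (m + 1)) ℂ} (β : List (Fin (m + 1))) (hf : f ∈ Deg w n) :
    wordD (DD Q) β f ∈ Deg w n := by
  induction β with
  | nil => exact hf
  | cons i β ih => exact DD_mem_Deg Q i ih

theorem cnt_finite {σ : Type*} [Finite σ] {w : σ → ℕ} (hw : ∀ i, 0 < w i) (s : ℕ) :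
    {a : σ →₀ ℕ | Finsupp.weight w a ≤ s}.Finite :=
  Finsupp.finite_of_nat_weight_le w (fun i => (hw i).ne') s

theorem weight_eq_sum {σ : Type*} [Fintype σ] (w : σ → ℕ) (a : σ →₀ ℕ) :
    Finsupp.weight w a = ∑ i, a i * w i := by
  rw [Finsupp.weight_apply, Finsupp.sum_fintype _ _ (by simp)]
  simp

end Crest.Agent.R11
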