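import Crest.Agent.R11.Basic

set_option autoImplicit false

namespace Crest.Agent.R11
open MvPolynomial

theorem count_pow_le (v W d : ℕ) :
    (v + W) ^ (d + 1) ≤ v ^ (d + 1) + (d + 1) * W * (v + W) ^ d := by
  induction d with
  | zero => simp
  | succ d ih =>
    have h1 : v ^ (d + 1) ≤ (v + W) ^ (d + 1) := Nat.pow_le_pow_left (Nat.le_add_right _ _) _
    calc (v + W) ^ (d + 1 + 1) = (v + W) ^ (d + 1) * (v + W) := pow_succ _ _
      _ ≤ (v ^ (d + 1) + (d + 1) * W * (v + W) ^ d) * (v + W) := Nat.mul_le_mul_right _ ih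
      _ = v ^ (d + 1 + 1) + W * v ^ (d + 1) + (d + 1) * W * (v + W) ^ (d + 1) := by ring
      _ ≤ v ^ (d + 1 + 1) + W * (v + W) ^ (d + 1) + (d + 1) * W * (v + W) ^ (d + 1) := by gcongr
      _ = _ := by ring

theorem count_le_pow (u W d : ℕ) : u ^ (d + 1) + (d + 1) * W * u ^ d ≤ (u + W) ^ (d + 1) := by
  induction d with
  | zero => simp
  | succ d ih =>
    calc u ^ (d + 1 + 1) + (d + 1 + 1) * W * u ^ (d + 1)
        ≤ u ^ (d + 1 + 1) + (d + 1 + 1) * W * u ^ (d + 1) + (d + 1) * W * W * u ^ d :=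
          Nat.le_add_right _ _
      _ = (u ^ (d + 1) + (d + 1) * W * u ^ d) * (u + W) := by ring
      _ ≤ (u + W) ^ (d + 1) * (u + W) := Nat.mul_le_mul_right _ ih
      _ = _ := (pow_succ _ _).symm

/-- Lattice points supported on a finite set of coordinates. -/
noncomputable def cntOn {σ : Type*} (w : σ → ℕ) (T : Finset σ) (s : ℕ) : ℕ :=
  Set.ncard {a : σ →₀ ℕ | (∀ j, j ∉ T → a j = 0) ∧ Finsupp.weight w a ≤ s}

theorem cntOn_empty {σ : Type*} (w : σ → ℕ) (s : ℕ) : cntOn w ∅ s = 1 := by
  have : {a : σ →₀ ℕ | (∀ j, j ∉ (∅ : Finset σ) → a j = 0) ∧ Finsupp.weight w a ≤ s} = {0} := by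
    ext a
    simp only [Set.mem_ofPred_eq, Set.mem_singleton_iff]
    constructor
    · exact fun h => Finsupp.ext fun j => h.1 j (by simp)
    · rintro rfl
      simp
  rw [cntOn, this, Set.ncard_singleton]

theorem cntOn_insert {σ : Type*} [Fintype σ] [DecidableEq σ] {w : σ → ℕ} (hw : ∀ i, 0 < w i)
    {T : Finset σ} {i : σ} (hi : i ∉ T) (s : ℕ) :
    cntOn w (insert i T) s =
      cntOn w T s + if w i ≤ s then cntOn w (insert i T) (s - w i) else 0 := by
  have fin : ∀ (T : Finset σ) (s : ℕ),
      {a : σ →₀ ℕ | (∀ j, j ∉ T → a j = 0) ∧ Finsupp.weight w a ≤ s}.Finite :=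
    fun T s => (cnt_finite hw s).subset fun a ha => ha.2
  have wadd : ∀ b : σ →₀ ℕ, Finsupp.weight w (b + Finsupp.single i 1) =
      Finsupp.weight w b + w i := fun b => by simp [Finsupp.weight_single]
  split_ifs with h
  · have e : {a : σ →₀ ℕ | (∀ j, j ∉ insert i T → a j = 0) ∧ Finsupp.weight w a ≤ s} =
        {a : σ →₀ ℕ | (∀ j, j ∉ T → a j = 0) ∧ Finsupp.weight w a ≤ s} ∪
        (· + Finsupp.single i 1) ''
          {a : σ →₀ ℕ | (∀ j, j ∉ insert i T → a j = 0) ∧ Finsupp.weight w a ≤ s - w i} := by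
      ext a
      simp only [Set.mem_ofPred_eq, Set.mem_union, Set.mem_image]
      constructor
      · rintro ⟨h1, h2⟩
        by_cases h0 : a i = 0
        · refine Or.inl ⟨fun j hj => ?_, h2⟩
          by_cases hji : j = i
          · rwa [hji]
          · exact h1 j (by simp [hji, hj])
        · have hle : Finsupp.single i 1 ≤ a := Finsupp.single_le_iff.2 (by omega)
          obtain ⟨b, rfl⟩ := exists_add_of_le hle
          refine Or.inr ⟨b, ⟨fun j hj => ?_, ?_⟩, add_comm _ _⟩
          · have := h1 j hj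
            simp only [Finsupp.add_apply] at this
            omega
          · rw [add_comm, wadd] at h2
            omega
      · rintro (⟨h1, h2⟩ | ⟨b, ⟨h1, h2⟩, rfl⟩)
        · exact ⟨fun j hj => h1 j fun hT => hj (Finset.mem_insert_of_mem hT), h2⟩
        · refine ⟨fun j hj => ?_, by rw [wadd]; omega⟩
          have : i ≠ j := fun e => hj (e ▸ Finset.mem_insert_self i T)
          simp [h1 j hj, this]
    rw [cntOn, e, Set.ncard_union_eq _ (fin _ _) ((fin _ _).image _),
      Set.ncard_image_of_injective _ (add_left_injective _)]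
    · rfl
    · rw [Set.disjoint_left]
      rintro _ ⟨h1, -⟩ ⟨b, -, rfl⟩
      simpa using h1 i hi
  · rw [add_zero, cntOn, cntOn]
    congr 1
    ext a
    simp only [Set.mem_ofPred_eq]
    refine and_congr_left fun h2 => ⟨fun h1 j hj => ?_,
      fun h1 j hj => h1 j fun hT => hj (Finset.mem_insert_of_mem hT)⟩
    by_cases hji : j = i
    · by_contra h0
      have hle : Finsupp.single i 1 ≤ a := Finsupp.single_le_iff.2 (by rw [← hji]; omega)
      obtain ⟨b, rfl⟩ := exists_add_of_le hle
      rw [add_comm, wadd] at h2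
      omega
    · exact h1 j (by simp [hji, hj])

theorem cntOn_bounds {σ : Type*} [Fintype σ] {w : σ → ℕ} (hw : ∀ i, 0 < w i) (T : Finset σ) :
    ∀ s, (s + 1) ^ T.card ≤ T.card.factorial * (∏ i ∈ T, w i) * cntOn w T s ∧
      T.card.factorial * (∏ i ∈ T, w i) * cntOn w T s ≤ (s + ∑ i ∈ T, w i) ^ T.card := by
  classical
  induction T using Finset.induction_on with
  | empty => simp [cntOn_empty]
  | insert i T hi ih =>
    intro s
    induction s using Nat.strong_induction_on with
    | _ s ihs =>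
      rw [cntOn_insert hw hi]
      simp only [Finset.card_insert_of_notMem hi, Finset.prod_insert hi, Finset.sum_insert hi,
        Nat.factorial_succ] at ihs ⊢
      obtain ⟨h1, h2⟩ := ih s
      have hW := hw i
      have h3 := count_le_pow (s + ∑ j ∈ T, w j) (w i) T.card
      have l1 := Nat.mul_le_mul_left ((T.card + 1) * w i) h1
      have l2 := Nat.mul_le_mul_left ((T.card + 1) * w i) h2
      have e0 : s + (w i + ∑ j ∈ T, w j) = s + ∑ j ∈ T, w j + w i := by ring
      rw [e0, mul_add]
      have e1 : (T.card + 1) * T.card.factorial * (w i * ∏ j ∈ T, w j) * cntOn w T s =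
          (T.card + 1) * w i * (T.card.factorial * (∏ j ∈ T, w j) * cntOn w T s) := by ring
      rw [e1]
      split_ifs with h
      · obtain ⟨h4, h5⟩ := ihs (s - w i) (by omega)
        have h6 := count_pow_le (s - w i + 1) (w i) T.card
        rw [show s - w i + 1 + w i = s + 1 by omega] at h6
        rw [show s - w i + (w i + ∑ j ∈ T, w j) = s + ∑ j ∈ T, w j by omega] at h5
        omega
      · have h7 : (s + 1) ^ (T.card + 1) ≤ (T.card + 1) * w i * (s + 1) ^ T.card := by
          rw [pow_succ']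
          exact Nat.mul_le_mul_right _ (by nlinarith)
        omega

theorem cntOn_univ {σ : Type*} [Fintype σ] (w : σ → ℕ) (s : ℕ) :
    cntOn w Finset.univ s = cnt w s := by
  simp [cntOn, cnt]

/-- Lower bound for the number of lattice points in a simplex. -/
theorem cnt_lower {σ : Type*} [Fintype σ] {w : σ → ℕ} (hw : ∀ i, 0 < w i) (s : ℕ) :
    (s + 1) ^ Fintype.card σ ≤ (Fintype.card σ).factorial * (∏ i, w i) * cnt w s := by
  simpa [cntOn_univ] using (cntOn_bounds hw Finset.univ s).1

/-- Upper bound for the number of lattice points in a simplex. -/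
theorem cnt_upper {σ : Type*} [Fintype σ] {w : σ → ℕ} (hw : ∀ i, 0 < w i) (s : ℕ) :
    (Fintype.card σ).factorial * (∏ i, w i) * cnt w s ≤ (s + ∑ i, w i) ^ Fintype.card σ := by
  simpa [cntOn_univ] using (cntOn_bounds hw Finset.univ s).2

end Crest.Agent.R11
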