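import Crest.Agent.R11.Basic

set_option autoImplicit false

namespace Crest.Agent.R11
open MvPolynomial

namespace IndepAux

/-- A derivation lowers the power of an ideal by at most one. -/
theorem der_pow {R A : Type*} [CommRing R] [CommRing A] [Algebra R A] (d : Derivation R A A)
    (q : Ideal A) (n : ℕ) : ∀ f ∈ q ^ (n + 1), d f ∈ q ^ n := by
  induction n with
  | zero => intro f _; simp
  | succ n ih =>
    intro f hf
    rw [pow_succ] at hf
    refine Submodule.mul_induction_on hf (fun a ha b hb => ?_) (fun a b ha hb => ?_)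
    · rw [d.leibniz, smul_eq_mul, smul_eq_mul]
      refine Ideal.add_mem _ (Ideal.mul_mem_right _ _ ha) ?_
      rw [mul_comm, pow_succ]
      exact Ideal.mul_mem_mul (ih a ha) hb
    · rw [map_add]
      exact Ideal.add_mem _ ha hb

section

variable {A κ : Type*} [CommRing A] [Algebra ℂ A] [DecidableEq κ]

/-- Compatibility of a derivation with the formal partial derivative. -/
def T (d : Derivation ℂ A A) (q : Ideal A) (h : κ → A) (s : A) (i : κ) (n : ℕ)
    (p : MvPolynomial κ A) : Prop :=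
  eval h p ∈ q ^ n ∧ d (eval h p) - s * eval h (pderiv i p) ∈ q ^ n

variable {d : Derivation ℂ A A} {q : Ideal A} {h : κ → A} {s : A} {i : κ}

omit [DecidableEq κ] in
theorem T.zero (p : MvPolynomial κ A) : T d q h s i 0 p := by simp [T]

omit [DecidableEq κ] in
theorem T.add {n : ℕ} {a b : MvPolynomial κ A} (ha : T d q h s i n a) (hb : T d q h s i n b) :
    T d q h s i n (a + b) := by
  refine ⟨by rw [map_add]; exact Ideal.add_mem _ ha.1 hb.1, ?_⟩
  have := Ideal.add_mem _ ha.2 hb.2
  convert this using 1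
  simp only [map_add]
  ring

omit [DecidableEq κ] in
theorem T.mul {n m : ℕ} {a b : MvPolynomial κ A} (ha : T d q h s i n a) (hb : T d q h s i m b) :
    T d q h s i (n + m) (a * b) := by
  rw [T, pow_add]
  refine ⟨by rw [map_mul]; exact Ideal.mul_mem_mul ha.1 hb.1, ?_⟩
  have := Ideal.add_mem _ (Ideal.mul_mem_mul ha.2 hb.1) (Ideal.mul_mem_mul ha.1 hb.2)
  convert this using 1
  simp only [map_mul, Derivation.leibniz, smul_eq_mul, map_add]
  ring

theorem T.one (hq : ∀ j, h j ∈ q) (hD : ∀ j, d (h j) - (if j = i then s else 0) ∈ q)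
    {p : MvPolynomial κ A} (hp : p ∈ idealOfVars κ A) : T d q h s i 1 p := by
  refine Submodule.span_induction (p := fun p _ => T d q h s i 1 p) ?_ ?_ ?_ ?_ hp
  · rintro _ ⟨j, rfl⟩
    refine ⟨by simpa using hq j, ?_⟩
    have := hD j
    rw [pow_one]
    convert this using 2
    · simp
    · by_cases hj : j = i
      · subst hj; simp
      · simp [hj, pderiv_X]
  · simp [T]
  · intro a b _ _ ha hb
    exact ha.add hb
  · intro a b _ hb
    simpa using (T.zero a).mul hb

theorem T.pow (hq : ∀ j, h j ∈ q) (hD : ∀ j, d (h j) - (if j = i then s else 0) ∈ q) (n : ℕ) :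
    ∀ p ∈ idealOfVars κ A ^ n, T d q h s i n p := by
  induction n with
  | zero => intro p _; exact T.zero p
  | succ n ih =>
    intro p hp
    rw [pow_succ] at hp
    exact Submodule.mul_induction_on hp (fun a ha b hb => (ih a ha).mul (T.one hq hD hb))
      (fun a b ha hb => ha.add hb)

end

/-- Iterated formal partial derivatives. -/
noncomputable def pd {A κ : Type*} [CommRing A] (β : List κ) (p : MvPolynomial κ A) :
    MvPolynomial κ A :=
  β.foldr (fun i r => pderiv i r) p

/-- The exponent vector of a word. -/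
noncomputable def ex {κ : Type*} (β : List κ) : κ →₀ ℕ := (β.map fun i => Finsupp.single i 1).sum

theorem ex_cons {κ : Type*} (i : κ) (β : List κ) : ex (i :: β) = Finsupp.single i 1 + ex β := by
  simp [ex]

theorem exists_ex {κ : Type*} (α : κ →₀ ℕ) : ∃ β, ex β = α := by
  induction α using Finsupp.induction_linear with
  | zero => exact ⟨[], rfl⟩
  | add f g hf hg =>
    obtain ⟨β, rfl⟩ := hf
    obtain ⟨γ, rfl⟩ := hg
    exact ⟨β ++ γ, by simp [ex]⟩
  | single i n => exact ⟨List.replicate n i, by simp [ex]⟩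

theorem weight_ex {κ : Type*} (w : κ → ℕ) (β : List κ) :
    Finsupp.weight w (ex β) = (β.map w).sum := by
  induction β with
  | nil => simp [ex]
  | cons i β ih => simp [ex_cons, ih, Finsupp.weight_single]

theorem degree_ex {κ : Type*} (β : List κ) : (ex β).degree = β.length := by
  induction β with
  | nil => simp [ex]
  | cons i β ih => simp [ex_cons, ih, add_comm]

theorem coeff_pd {A κ : Type*} [CommRing A] (β : List κ) (p : MvPolynomial κ A) :
    ∀ γ, ∃ c : ℕ, c ≠ 0 ∧ coeff γ (pd β p) = coeff (γ + ex β) p * c := by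
  induction β with
  | nil => intro γ; exact ⟨1, one_ne_zero, by simp [pd, ex]⟩
  | cons i β ih =>
    intro γ
    obtain ⟨c, hc, h⟩ := ih (γ + Finsupp.single i 1)
    refine ⟨c * (γ i + 1), by positivity, ?_⟩
    have : pd (i :: β) p = pderiv i (pd β p) := rfl
    rw [this, coeff_pderiv, h, ex_cons, add_assoc]
    push_cast
    ring

theorem word_approx {A ι κ : Type*} [CommRing A] [Algebra ℂ A] [DecidableEq κ]
    (D : ι → Derivation ℂ A A) (q : Ideal A) (h : κ → A) (hq : ∀ i, h i ∈ q) (σ : κ → ι) (s : A)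
    (hD : ∀ i i', D (σ i') (h i) - (if i = i' then s else 0) ∈ q) (p : MvPolynomial κ A)
    (β : List κ) : ∀ m : ℕ, p ∈ idealOfVars κ A ^ (β.length + m) →
      pd β p ∈ idealOfVars κ A ^ m ∧
        wordD D (β.map σ) (eval h p) - s ^ β.length * eval h (pd β p) ∈ q ^ (m + 1) := by
  induction β with
  | nil => intro m hp; exact ⟨by simpa [pd] using hp, by simp [pd]⟩
  | cons i β ih =>
    intro m hp
    obtain ⟨h₁, h₂⟩ := ih (m + 1) (by
      rwa [List.length_cons, add_assoc, add_comm 1 m] at hp)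
    have e : pd (i :: β) p = pderiv i (pd β p) := rfl
    rw [e]
    refine ⟨der_pow _ _ _ _ h₁, ?_⟩
    obtain ⟨h₃, h₄⟩ := T.pow (d := D (σ i)) (s := s) (i := i) hq (fun j => hD j i) _ _ h₁
    have h₅ := der_pow (D (σ i)) q _ _ h₂
    have := Ideal.add_mem _ (Ideal.add_mem _ h₅
      (Ideal.mul_mem_right (D (σ i) (s ^ β.length)) _ h₃)) (Ideal.mul_mem_left _ (s ^ β.length) h₄)
    convert this using 1
    simp only [List.map_cons, wordD_cons, List.length_cons, map_sub, Derivation.leibniz,
      smul_eq_mul]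
    ring

end IndepAux

open IndepAux in
/-- Monomials in a dual system `h` are independent modulo the filtration `FQ`. -/
theorem indep_FQ {A ι κ : Type*} [CommRing A] [Algebra ℂ A] [Fintype κ] [DecidableEq κ]
    (D : ι → Derivation ℂ A A) (v : ι → ℕ) (q : Ideal A) (hqp : q.IsPrime) (h : κ → A)
    (hq : ∀ i, h i ∈ q) (σ : κ → ι) (s : A) (hs : s ∉ q)
    (hD : ∀ i i', D (σ i') (h i) - (if i = i' then s else 0) ∈ q)
    (t : ℕ) (S : Finset (κ →₀ ℕ)) (hS : ∀ α ∈ S, Finsupp.weight (fun i => v (σ i)) α < t)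
    (a : (κ →₀ ℕ) → A) (hsum : ∑ α ∈ S, a α * ∏ i, h i ^ α i ∈ FQ D v q t)
    (ha : ∀ α ∈ S, a α ∈ q → a α = 0) : ∀ α ∈ S, a α = 0 := by
  classical
  by_contra hne
  push Not at hne
  obtain ⟨α₀, hα₀, hα₀'⟩ := hne
  obtain ⟨α, hαm, hmin⟩ := Finset.exists_min_image (S.filter fun α => a α ≠ 0) Finsupp.degree
    ⟨α₀, Finset.mem_filter.2 ⟨hα₀, hα₀'⟩⟩
  obtain ⟨hα, hα'⟩ := Finset.mem_filter.1 hαm
  obtain ⟨β, rfl⟩ := exists_ex α
  set p : MvPolynomial κ A := ∑ γ ∈ S, monomial γ (a γ) with hp
  have hcoeff : ∀ γ, coeff γ p = if γ ∈ S then a γ else 0 := by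
    intro γ
    simp [hp, coeff_sum, coeff_monomial]
  have hev : eval h p = ∑ α ∈ S, a α * ∏ i, h i ^ α i := by
    simp [hp, eval_monomial, Finsupp.prod_fintype]
  have hpI : p ∈ idealOfVars κ A ^ (β.length + 0) := by
    rw [mem_pow_idealOfVars_iff']
    intro γ hγ
    rw [hcoeff]
    split_ifs with hγS
    · by_contra hne
      have := hmin γ (Finset.mem_filter.2 ⟨hγS, hne⟩)
      rw [degree_ex] at this
      omega
    · rfl
  obtain ⟨-, h₂⟩ := word_approx D q h hq σ s hD p β 0 hpI
  have h₃ : wordD D (β.map σ) (eval h p) ∈ q := by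
    rw [hev]
    refine hsum _ ?_
    have := hS _ hα
    rwa [weight_ex, ← Function.comp_def v σ, ← List.map_map] at this
  rw [zero_add, pow_one] at h₂
  have h₄ : s ^ β.length * eval h (pd β p) ∈ q := by
    have := q.sub_mem h₃ h₂
    simpa using this
  have h₅ : eval h (pd β p) ∈ q :=
    (hqp.mem_or_mem h₄).resolve_left fun h' => hs (hqp.mem_of_pow_mem _ h')
  obtain ⟨c, hc, h₆⟩ := coeff_pd β p 0
  have h₇ : pd β p - C (coeff 0 (pd β p)) ∈ idealOfVars κ A ^ 1 := by
    rw [mem_pow_idealOfVars_iff']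
    intro γ hγ
    obtain rfl : γ = 0 := (Finsupp.degree_eq_zero_iff γ).1 (by omega)
    simp
  have h₈ : eval h (pd β p - C (coeff 0 (pd β p))) ∈ q := by
    rw [pow_one] at h₇
    have : Ideal.map (eval h) (idealOfVars κ A) ≤ q := by
      rw [Ideal.map_le_iff_le_comap, idealOfVars, Ideal.span_le]
      rintro _ ⟨j, rfl⟩
      simpa using hq j
    exact this (Ideal.mem_map_of_mem _ h₇)
  have h₉ : a (ex β) * c ∈ q := by
    have := q.sub_mem h₅ h₈
    rw [map_sub, eval_C, sub_sub_cancel, h₆, zero_add, hcoeff, if_pos hα] at this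
    exact this
  have hu : IsUnit (c : A) := by
    have : IsUnit (c : ℂ) := (Nat.cast_ne_zero.2 hc).isUnit
    simpa using this.map (algebraMap ℂ A)
  exact hα' (ha _ hα ((Ideal.mul_unit_mem_iff_mem q hu).1 h₉))

end Crest.Agent.R11
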