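import Crest.Agent.R11.Surj
import Crest.Agent.R11.Count
import Crest.Agent.R11.Indep
import Crest.Agent.R11.Alg

set_option autoImplicit false

namespace Crest.Agent.R11
open MvPolynomial

/-- Every polynomial of weighted degree `≤ n` is a `ℂ[x_J]`-combination of monomials in the
remaining variables of weight `≤ n`. -/
theorem bez_Deg_le_span {ι : Type*} [Fintype ι] [DecidableEq ι] (J : Finset ι) (ω : ι → ℕ) (n : ℕ)
    (f : MvPolynomial ι ℂ) (hf : f ∈ Deg ω n) :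
    f ∈ Submodule.span (supported ℂ (J : Set ι))
      ((fun b : {i // i ∉ J} →₀ ℕ => ∏ i : {i // i ∉ J}, (X i.1 : MvPolynomial ι ℂ) ^ b i) ''
        {b | Finsupp.weight (fun i : {i // i ∉ J} => ω i) b ≤ n}) := by
  rw [f.as_sum]
  refine Submodule.sum_mem _ fun d hd => ?_
  have hw := mem_Deg.1 hf d (mem_support_iff.1 hd)
  have hmem : (C (coeff d f) * ∏ i : {i // i ∈ J}, (X i.1 : MvPolynomial ι ℂ) ^ d i) ∈
      supported ℂ (J : Set ι) := by
    refine Subalgebra.mul_mem _ (Subalgebra.algebraMap_mem _ _) (Subalgebra.prod_mem _ fun i _ => ?_)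
    exact Subalgebra.pow_mem _ (X_mem_supported.2 i.2) _
  have heq : monomial d (coeff d f) =
      (⟨_, hmem⟩ : supported ℂ (J : Set ι)) •
        ∏ i : {i // i ∉ J}, (X i.1 : MvPolynomial ι ℂ) ^ d i := by
    rw [Subalgebra.smul_def, smul_eq_mul, monomial_eq, Finsupp.prod_fintype _ _ (by simp),
      ← Fintype.prod_subtype_mul_prod_subtype (fun i => i ∈ J), ← mul_assoc]
    congr 2
    exact Finset.prod_congr (by convert rfl) (fun _ _ => rfl)
  rw [heq]
  refine Submodule.smul_mem _ _ (Submodule.subset_span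
    ⟨Finsupp.equivFunOnFinite.symm (fun i => d i), ?_, by simp⟩)
  rw [Set.mem_ofPred_eq, weight_eq_sum]
  rw [weight_eq_sum, ← Fintype.sum_subtype_add_sum_subtype (fun i => i ∈ J)] at hw
  simp only [Finsupp.equivFunOnFinite_symm_apply_apply]
  omega

theorem bez_pow_mem_FQ {A ι : Type*} [CommRing A] [Algebra ℂ A] (D : ι → Derivation ℂ A A)
    {v : ι → ℕ} (hv : ∀ i, 0 < v i) {q : Ideal A} {r : A} (hr : r ∈ q) (t : ℕ) :
    r ^ t ∈ FQ D v q t := by
  induction t with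
  | zero => exact FQ_zero D v q _
  | succ t ih => rw [pow_succ]; exact FQ_mul ih (FQ_one D hv hr)

/-- The asymptotic surjectivity for the zero ideal. -/
theorem bez_surjC {ι : Type*} [Fintype ι] [DecidableEq ι]
    (D : ι → Derivation ℂ (MvPolynomial ι ℂ) (MvPolynomial ι ℂ)) (v ω : ι → ℕ)
    (hv : ∀ i, 0 < v i)
    (q : Ideal (MvPolynomial ι ℂ)) (hqp : q.IsPrime) (J : Finset ι)
    (hJ : ∀ f ∈ supported ℂ (J : Set ι), f ∈ q → f = 0)
    (halg : ∀ i, i ∉ J → ∃ g, g ≠ 0 ∧ g ∈ q ∧ g ∈ supported ℂ (insert i (J : Set ι)))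
    (G : Set (MvPolynomial ι ℂ)) (R η : ℕ) (hR : 0 < R) (hη : 0 < η)
    (hG : ∀ g ∈ G, g ∈ Deg ω R ∧ g ∈ FQ D v q η) (hmin : q ∈ (Ideal.span G).minimalPrimes) :
    SurjC (fun n => Submodule.span (supported ℂ (J : Set ι)) (Deg ω n : Set (MvPolynomial ι ℂ)))
      (FQ D v q) ((η : ℝ) / R) ⊥ := by
  have hR' : (0 : ℝ) < R := by exact_mod_cast hR
  have hη' : (0 : ℝ) < η := by exact_mod_cast hη
  refine surj _ _ _ (div_pos hη' hR') (fun a b hab => Submodule.span_mono (Deg_mono ω hab)) ?_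
    (fun f => ?_) (FQ_anti D v q) (fun s t f g hf hg => FQ_mul hf hg) ?_ ⊥
  · intro a b f g hf hg
    have := Submodule.mul_mem_mul hf hg
    rw [Submodule.span_mul_span] at this
    refine Submodule.span_mono ?_ this
    rintro _ ⟨f', hf', g', hg', rfl⟩
    exact Deg_mul hf' hg'
  · obtain ⟨n, hn⟩ := Deg_exists ω f
    exact ⟨n, Submodule.subset_span hn⟩
  · intro p hp
    by_cases hGp : ∃ g ∈ G, g ∉ p
    · obtain ⟨g, hg, hgp⟩ := hGp
      refine Or.inr ⟨g, R, η, hgp, Submodule.subset_span (hG g hg).1, (hG g hg).2, ?_, hη⟩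
      rw [div_mul_cancel₀ _ hR'.ne']
    push Not at hGp
    left
    by_cases hpq : p ≤ q
    · have hqle : q ≤ p := hmin.2 ⟨hp, Ideal.span_le.2 hGp⟩ hpq
      obtain ⟨T, hT⟩ := alg_fin_rank q hqp J hJ halg
      choose nn hnn using Deg_exists ω
      intro x' _
      refine ⟨T.sup nn, fun n hn t _ g => ?_⟩
      obtain ⟨s, hs, p₀, hp₀, hsp⟩ := hT g
      refine ⟨s, hs, p₀, Submodule.span_mono (fun f hf => ?_) hp₀, s • g - p₀, hqle hsp, 0,
        Submodule.zero_mem _, by ring⟩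
      exact Deg_mono ω ((Finset.le_sup hf).trans hn) (hnn f)
    · obtain ⟨f, hfp, hfq⟩ := SetLike.not_le_iff_exists.1 hpq
      obtain ⟨s, hsJ, hs0, u, hu⟩ := alg_exists_mem q hqp J hJ halg f hfq
      intro x' _
      refine ⟨0, fun n _ t _ g => ?_⟩
      obtain ⟨c, hc⟩ := sub_dvd_pow_sub_pow s (s - f * u) t
      refine ⟨(⟨s, hsJ⟩ : supported ℂ (J : Set ι)) ^ t, pow_ne_zero _ (fun h => hs0 ?_), 0,
        Submodule.zero_mem _, (s ^ t - (s - f * u) ^ t) * g, ?_, (s - f * u) ^ t * g,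
        Ideal.mul_mem_right _ _ (bez_pow_mem_FQ D hv hu t), ?_⟩
      · exact congrArg Subtype.val h
      · rw [hc, sub_sub_cancel, mul_assoc, mul_assoc]
        exact Ideal.mul_mem_right _ _ hfp
      · change s ^ t * g = _
        ring

/-- Counting consequence of the asymptotic surjectivity. -/
theorem bez_count {ι : Type*} [Fintype ι] [DecidableEq ι]
    (D : ι → Derivation ℂ (MvPolynomial ι ℂ) (MvPolynomial ι ℂ)) (v ω : ι → ℕ)
    (hv : ∀ i, 0 < v i) (hω : ∀ i, 0 < ω i)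
    (q : Ideal (MvPolynomial ι ℂ)) (hqp : q.IsPrime) (J : Finset ι)
    (hJ : ∀ f ∈ supported ℂ (J : Set ι), f ∈ q → f = 0)
    (h : {i // i ∉ J} → MvPolynomial ι ℂ) (hq : ∀ i, h i ∈ q) (σ : {i // i ∉ J} → ι)
    (s : MvPolynomial ι ℂ) (hs : s ∉ q)
    (hD : ∀ i i', D (σ i') (h i) - (if i = i' then s else 0) ∈ q) (n t : ℕ)
    (hsurj : ∀ g : MvPolynomial ι ℂ, ∃ s : supported ℂ (J : Set ι), s ≠ 0 ∧
      ∃ p ∈ Submodule.span (supported ℂ (J : Set ι)) (Deg ω n : Set (MvPolynomial ι ℂ)),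
        ∃ u ∈ (⊥ : Ideal (MvPolynomial ι ℂ)), ∃ φ ∈ FQ D v q (t + 1), s • g = p + u + φ) :
    cnt (fun i => v (σ i)) t ≤ cnt (fun i : {i // i ∉ J} => ω i) n := by
  classical
  choose sg hsg pg hpg ug hug φ hφ heq using hsurj
  set S := (cnt_finite (w := fun i => v (σ i)) (fun i => hv _) t).toFinset with hS
  set W := (cnt_finite (w := fun i : {i // i ∉ J} => ω i) (fun i => hω _) n).toFinset with hW
  set mon : ({i // i ∉ J} →₀ ℕ) → MvPolynomial ι ℂ := fun α => ∏ i, h i ^ α i with hmon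
  set e : ({i // i ∉ J} →₀ ℕ) → MvPolynomial ι ℂ :=
    fun b => ∏ i : {i // i ∉ J}, (X i.1 : MvPolynomial ι ℂ) ^ b i with he
  have hli : LinearIndependent (supported ℂ (J : Set ι)) (fun α : S => pg (mon α)) := by
    rw [Fintype.linearIndependent_iff]
    intro c hc
    set a : ({i // i ∉ J} →₀ ℕ) → MvPolynomial ι ℂ :=
      fun α => if hα : α ∈ S then ((c ⟨α, hα⟩ * sg (mon α) : supported ℂ (J : Set ι)) :
        MvPolynomial ι ℂ) else 0 with ha
    have key := indep_FQ D v q hqp h hq σ s hs hD (t + 1) S (fun α hα => by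
      have := (Set.Finite.mem_toFinset _).1 hα
      rw [Set.mem_ofPred_eq] at this
      omega) a ?_ ?_
    · intro α
      have h1 := key α.1 α.2
      simp only [ha, dif_pos α.2] at h1
      have h2 : c α * sg (mon α) = 0 := Subtype.ext h1
      exact (mul_eq_zero.1 h2).resolve_right (hsg _)
    · have h1 : ∑ α ∈ S, a α * ∏ i, h i ^ α i =
          ∑ α : S, c α • pg (mon α) + ∑ α : S, c α • φ (mon α) := by
        rw [← Finset.sum_add_distrib, ← Finset.sum_coe_sort S]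
        refine Finset.sum_congr rfl fun α _ => ?_
        have h2 := heq (mon α)
        rw [(Submodule.mem_bot _).1 (hug (mon α)), add_zero] at h2
        rw [← smul_add, ← h2, smul_smul]
        simp only [ha, dif_pos α.2]
        rfl
      rw [h1, hc, zero_add]
      exact Ideal.sum_mem _ fun α _ => Ideal.mul_mem_left _ _ (hφ _)
    · intro α hα hq'
      simp only [ha, dif_pos hα] at hq' ⊢
      exact hJ _ (Subtype.property _) hq'
  have hspan : Set.range (fun α : S => pg (mon α)) ≤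
      (Submodule.span (supported ℂ (J : Set ι))
        ((W.image e : Finset (MvPolynomial ι ℂ)) : Set (MvPolynomial ι ℂ)) :
          Submodule (supported ℂ (J : Set ι)) (MvPolynomial ι ℂ)) := by
    rintro _ ⟨α, rfl⟩
    refine (Submodule.span_le.2 (fun f hf => ?_) : Submodule.span _ _ ≤ _) (hpg (mon α))
    have := bez_Deg_le_span J ω n f hf
    rw [Finset.coe_image, hW, Set.Finite.coe_toFinset]
    exact this
  have h1 := linearIndependent_le_span_aux' _ hli _ hspan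
  simp only [Fintype.card_coe, Finset.coe_sort_coe] at h1
  rw [cnt, cnt, Set.ncard_eq_toFinset_card _ (cnt_finite (w := fun i => v (σ i)) (fun i => hv _) t),
    Set.ncard_eq_toFinset_card _ (cnt_finite (w := fun i : {i // i ∉ J} => ω i) (fun i => hω _) n)]
  exact h1.trans Finset.card_image_le

/-- The limiting argument. -/
theorem bez_limit (d a b c R η : ℕ) (hR : 0 < R) (hη : 0 < η)
    (H : ∀ x' : ℝ, x' < (η : ℝ) / R → ∃ N : ℕ, ∀ n : ℕ, N ≤ n → ∀ t : ℕ,
      ((t + 1 : ℕ) : ℝ) ≤ x' * n → (t + 1) ^ d * a ≤ (n + c) ^ d * b) :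
    η ^ d * a ≤ R ^ d * b := by
  have hR' : (0 : ℝ) < R := by exact_mod_cast hR
  have hη' : (0 : ℝ) < η := by exact_mod_cast hη
  have key : ∀ ε : ℝ, 0 < ε → ε < η / 2 →
      ((η : ℝ) - 2 * ε) ^ d * a ≤ ((R : ℝ) + ε) ^ d * b := by
    intro ε hε hε2
    obtain ⟨N, hN⟩ := H ((η - ε) / R) (by gcongr; linarith)
    obtain ⟨k, hk⟩ := exists_nat_ge (max (N : ℝ) (max (1 / ε) (c / ε)))
    have hk1 : (N : ℝ) ≤ k := (le_max_left _ _).trans hk
    have hk2 : 1 / ε ≤ k := ((le_max_left _ _).trans (le_max_right _ _)).trans hk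
    have hk3 : c / ε ≤ k := ((le_max_right _ _).trans (le_max_right _ _)).trans hk
    rw [div_le_iff₀ hε] at hk2 hk3
    have hkpos : (0 : ℝ) < k := by
      by_contra hk0
      have : (k : ℝ) * ε ≤ 0 := mul_nonpos_of_nonpos_of_nonneg (not_lt.1 hk0) hε.le
      linarith
    have hfl : 1 ≤ ⌊((η : ℝ) - ε) * k⌋₊ := by
      rw [Nat.one_le_floor_iff]
      nlinarith
    obtain ⟨t, ht⟩ : ∃ t, ⌊((η : ℝ) - ε) * k⌋₊ = t + 1 := ⟨_, (Nat.sub_add_cancel hfl).symm⟩
    have h0 : (0 : ℝ) ≤ (η - ε) * k := mul_nonneg (by linarith) hkpos.le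
    have h1 : ((t + 1 : ℕ) : ℝ) ≤ (η - ε) * k := ht ▸ Nat.floor_le h0
    have h2 : (η - ε) * k < ((t + 1 : ℕ) : ℝ) + 1 := ht ▸ Nat.lt_floor_add_one _
    have hNle : N ≤ R * k := by
      have : N ≤ k := by exact_mod_cast hk1
      exact this.trans (Nat.le_mul_of_pos_left _ hR)
    have h3 := hN (R * k) hNle t (by
      rw [Nat.cast_mul, ← mul_assoc, div_mul_cancel₀ _ hR'.ne']; exact h1)
    have h4 : (((t + 1 : ℕ) : ℝ)) ^ d * a ≤ ((R : ℝ) * k + c) ^ d * b := by exact_mod_cast h3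
    have h5 : (((η : ℝ) - 2 * ε) * k) ^ d * a ≤ (((R : ℝ) + ε) * k) ^ d * b := by
      refine le_trans ?_ (h4.trans ?_)
      · gcongr
        · exact mul_nonneg (by linarith) hkpos.le
        · nlinarith
      · gcongr
        nlinarith
    rw [mul_pow, mul_pow, mul_right_comm, mul_right_comm (((R : ℝ) + ε) ^ d)] at h5
    exact le_of_mul_le_mul_right h5 (pow_pos hkpos d)
  have t1 : Filter.Tendsto (fun ε : ℝ => ((η : ℝ) - 2 * ε) ^ d * a) (nhdsWithin 0 (Set.Ioi 0))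
      (nhds (((η : ℝ) - 2 * 0) ^ d * a)) :=
    (Continuous.tendsto (by fun_prop) 0).mono_left nhdsWithin_le_nhds
  have t2 : Filter.Tendsto (fun ε : ℝ => ((R : ℝ) + ε) ^ d * b) (nhdsWithin 0 (Set.Ioi 0))
      (nhds (((R : ℝ) + 0) ^ d * b)) :=
    (Continuous.tendsto (by fun_prop) 0).mono_left nhdsWithin_le_nhds
  have h := le_of_tendsto_of_tendsto t1 t2 (by
    filter_upwards [Ioo_mem_nhdsGT (show (0 : ℝ) < η / 2 by linarith)] with ε hε
    exact key ε hε.1 hε.2)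
  simp only [mul_zero, sub_zero, add_zero] at h
  exact_mod_cast h

/-- The Bezout-type inequality for a prime `q` minimal over polynomials of weighted degree `≤ R`
which vanish along `q` to order `η`. -/
theorem bezout {ι : Type*} [Fintype ι] [DecidableEq ι]
    (D : ι → Derivation ℂ (MvPolynomial ι ℂ) (MvPolynomial ι ℂ)) (v ω : ι → ℕ)
    (hv : ∀ i, 0 < v i) (hω : ∀ i, 0 < ω i)
    (q : Ideal (MvPolynomial ι ℂ)) (hqp : q.IsPrime) (J : Finset ι)
    (hJ : ∀ f ∈ supported ℂ (J : Set ι), f ∈ q → f = 0)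
    (halg : ∀ i, i ∉ J → ∃ g, g ≠ 0 ∧ g ∈ q ∧ g ∈ supported ℂ (insert i (J : Set ι)))
    (G : Set (MvPolynomial ι ℂ)) (R η : ℕ) (hR : 0 < R) (hη : 0 < η)
    (hG : ∀ g ∈ G, g ∈ Deg ω R ∧ g ∈ FQ D v q η) (hmin : q ∈ (Ideal.span G).minimalPrimes)
    (h : {i // i ∉ J} → MvPolynomial ι ℂ) (hq : ∀ i, h i ∈ q) (σ : {i // i ∉ J} → ι)
    (s : MvPolynomial ι ℂ) (hs : s ∉ q)
    (hD : ∀ i i', D (σ i') (h i) - (if i = i' then s else 0) ∈ q) :
    η ^ Fintype.card {i // i ∉ J} * ∏ i : {i // i ∉ J}, ω i ≤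
      R ^ Fintype.card {i // i ∉ J} * ∏ i : {i // i ∉ J}, v (σ i) := by
  have hS := bez_surjC D v ω hv q hqp J hJ halg G R η hR hη hG hmin
  refine bez_limit _ _ _ (∑ i : {i // i ∉ J}, ω i) R η hR hη fun x' hx' => ?_
  obtain ⟨N, hN⟩ := hS x' hx'
  refine ⟨N, fun n hn t ht => ?_⟩
  have h1 := bez_count D v ω hv hω q hqp J hJ h hq σ s hs hD n t (hN n hn (t + 1) ht)
  have h2 := cnt_lower (w := fun i : {i // i ∉ J} => v (σ i)) (fun i => hv _) t
  have h3 := cnt_upper (w := fun i : {i // i ∉ J} => ω i) (fun i => hω _) n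
  calc (t + 1) ^ Fintype.card {i // i ∉ J} * ∏ i : {i // i ∉ J}, ω i
      ≤ ((Fintype.card {i // i ∉ J}).factorial * (∏ i : {i // i ∉ J}, v (σ i)) *
          cnt (fun i : {i // i ∉ J} => ω i) n) * ∏ i : {i // i ∉ J}, ω i :=
        Nat.mul_le_mul_right _ (h2.trans (Nat.mul_le_mul_left _ h1))
    _ = ((Fintype.card {i // i ∉ J}).factorial * (∏ i : {i // i ∉ J}, ω i) *
          cnt (fun i : {i // i ∉ J} => ω i) n) * ∏ i : {i // i ∉ J}, v (σ i) := by ring
    _ ≤ _ := Nat.mul_le_mul_right _ h3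

end Crest.Agent.R11
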