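import Crest.Agent.R11.Basic

set_option autoImplicit false

namespace Crest.Agent.R11
open MvPolynomial

theorem cpoly_logPoly_succ (Q : ℂ) (n : ℕ) :
    (1 + Polynomial.X) * Polynomial.derivative (logPoly Q (n + 1)) =
      Polynomial.C Q - Polynomial.C (Q * (-1) ^ n) * Polynomial.X ^ n := by
  induction n with
  | zero => simp [logPoly]
  | succ n ih =>
    have h1 : logPoly Q (n + 1 + 1) = logPoly Q (n + 1) +
        Polynomial.C (Q * (-1) ^ (n + 1 + 1) / ((n + 1 : ℕ) : ℂ)) * Polynomial.X ^ (n + 1) := by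
      unfold logPoly
      rw [Finset.sum_range_succ]
    have h2 : (Q * (-1) ^ (n + 1 + 1) / ((n + 1 : ℕ) : ℂ)) * ((n + 1 : ℕ) : ℂ) = Q * (-1) ^ n := by
      have : ((n + 1 : ℕ) : ℂ) ≠ 0 := Nat.cast_ne_zero.2 (Nat.succ_ne_zero n)
      rw [div_mul_cancel₀ _ this]; ring
    rw [h1, Polynomial.derivative_add, mul_add, ih, Polynomial.derivative_C_mul_X_pow, h2,
      Nat.add_sub_cancel, pow_succ (-1 : ℂ) n, mul_neg_one, mul_neg, Polynomial.C_neg]
    ring

theorem cpoly_dvd (k : ℕ) (p : ℤ) (q w : ℕ) :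
    Polynomial.X ^ (w - 1) ∣
      Polynomial.C (QQ q w : ℂ) - (1 + Polynomial.X) * Polynomial.derivative (cpoly k p q w) := by
  have h0 : Polynomial.derivative (cpoly k p q w) =
      Polynomial.derivative (logPoly (QQ q w) w) := by
    unfold cpoly
    rw [Polynomial.derivative_add, Polynomial.derivative_C, zero_add]
  cases w with
  | zero => simp
  | succ n =>
    rw [h0, cpoly_logPoly_succ, Nat.add_sub_cancel, sub_sub_cancel]
    exact Dvd.intro_left _ rfl

theorem cpoly_coeff_zero (k : ℕ) (p : ℤ) (q w : ℕ) :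
    (cpoly k p q w).coeff 0 = (k : ℂ) * (2 * Complex.I * p * (Nat.lcmUpto w : ℂ)) := by
  rw [Polynomial.coeff_zero_eq_eval_zero]
  unfold cpoly logPoly
  rw [Polynomial.eval_add, Polynomial.eval_C, Polynomial.eval_finsetSum, Finset.sum_eq_zero,
    add_zero]
  intro j _
  cases j with
  | zero => simp
  | succ j => simp

theorem cpoly_eval (k : ℕ) (p : ℤ) (q w : ℕ) (Y : ℂ) :
    (cpoly k p q w).eval Y =
      (k : ℂ) * (2 * Complex.I * p * (Nat.lcmUpto w : ℂ)) + (QQ q w : ℂ) * Complex.logTaylor w Y := by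
  unfold cpoly logPoly Complex.logTaylor
  rw [Polynomial.eval_add, Polynomial.eval_C, Polynomial.eval_finsetSum, Finset.mul_sum]
  congr 1
  refine Finset.sum_congr rfl fun j _ => ?_
  rw [Polynomial.eval_mul, Polynomial.eval_C, Polynomial.eval_pow, Polynomial.eval_X]
  ring

theorem cpoly_tau_monomial {m : ℕ} (c : Fin m → Polynomial ℂ) (a : Fin (m + 1) →₀ ℕ) :
    tau c (monomial a 1) =
      (1 + X 0) ^ a 0 * ∏ i : Fin m, (X i.succ + Polynomial.aeval (X 0) (c i)) ^ a i.succ := by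
  rw [monomial_eq, C_1, one_mul, Finsupp.prod_fintype _ _ (fun _ => pow_zero _), map_prod,
    Fin.prod_univ_succ]
  simp only [map_pow, tau_X_zero, tau_X_succ]

/-- The entries of the interpolation matrix are Gaussian integers. -/
theorem coeff_tau_gauss {m : ℕ} (k : ℕ) (p : Fin m → ℤ) (q w : Fin m → ℕ)
    (a α : Fin (m + 1) →₀ ℕ) :
    ∃ z : GaussianInt,
      coeff α (tau (fun i => cpoly k (p i) (q i) (w i)) (monomial a 1)) = (z : ℂ) := by
  let S : Subring (MvPolynomial (Fin (m + 1)) ℂ) :=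
    (MvPolynomial.map (σ := Fin (m + 1)) GaussianInt.toComplex).range
  have hX : ∀ i, (X i : MvPolynomial (Fin (m + 1)) ℂ) ∈ S := fun i => ⟨X i, map_X _ i⟩
  have hC : ∀ z : GaussianInt, (C (z : ℂ) : MvPolynomial (Fin (m + 1)) ℂ) ∈ S :=
    fun z => ⟨C z, map_C _ z⟩
  have hc : ∀ i, Polynomial.aeval (X 0 : MvPolynomial (Fin (m + 1)) ℂ)
      (cpoly k (p i) (q i) (w i)) ∈ S := by
    intro i
    unfold cpoly logPoly
    rw [map_add, map_sum, Polynomial.aeval_C, algebraMap_eq]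
    refine add_mem ?_ (sum_mem fun j hj => ?_)
    · have e : (k : ℂ) * (2 * Complex.I * p i * (Nat.lcmUpto (w i) : ℂ)) =
          ((⟨0, k * (2 * p i * (Nat.lcmUpto (w i) : ℤ))⟩ : GaussianInt) : ℂ) := by
        rw [GaussianInt.toComplex_def']
        push_cast
        ring
      rw [e]
      exact hC _
    · rw [map_mul, map_pow, Polynomial.aeval_X, Polynomial.aeval_C, algebraMap_eq]
      refine mul_mem ?_ (pow_mem (hX 0) j)
      rcases Nat.eq_zero_or_pos j with rfl | hj0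
      · simp
      · have hd : j ∣ Nat.lcmUpto (w i) :=
          Finset.dvd_lcm (f := id) (Finset.mem_Icc.2 ⟨hj0, (Finset.mem_range.1 hj).le⟩)
        obtain ⟨t, ht⟩ := hd
        have hj' : (j : ℂ) ≠ 0 := Nat.cast_ne_zero.2 hj0.ne'
        have e : ((QQ (q i) (w i) : ℕ) : ℂ) * (-1) ^ (j + 1) / (j : ℂ) =
            ((⟨(q i : ℤ) * t * (-1) ^ (j + 1), 0⟩ : GaussianInt) : ℂ) := by
          rw [GaussianInt.toComplex_def', QQ, ht]
          push_cast
          field_simp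
          ring
        rw [e]
        exact hC _
  have h : tau (fun i => cpoly k (p i) (q i) (w i)) (monomial a 1) ∈ S := by
    rw [cpoly_tau_monomial]
    exact mul_mem (pow_mem (add_mem (one_mem _) (hX 0)) _)
      (prod_mem fun i _ => pow_mem (add_mem (hX _) (hc i)) _)
  obtain ⟨f, hf⟩ := h
  exact ⟨coeff α f, by rw [← hf, coeff_map]⟩

theorem eval_tau_monomial {m : ℕ} (c : Fin m → Polynomial ℂ) (P : Fin (m + 1) → ℂ)
    (a : Fin (m + 1) →₀ ℕ) :
    eval P (tau c (monomial a 1)) =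
      (1 + P 0) ^ a 0 * ∏ i : Fin m, (P i.succ + (c i).eval (P 0)) ^ a i.succ := by
  have h : ∀ f : Polynomial ℂ,
      eval P (Polynomial.aeval (X 0 : MvPolynomial (Fin (m + 1)) ℂ) f) = f.eval (P 0) := by
    intro f
    induction f using Polynomial.induction_on' with
    | add f g hf hg => simp only [map_add, Polynomial.eval_add, hf, hg]
    | monomial n a => simp [Polynomial.aeval_monomial]
  rw [cpoly_tau_monomial]
  simp only [map_mul, map_pow, map_add, map_one, eval_X, map_prod, h]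

theorem lcm_bound (w : ℕ) : (Nat.lcmUpto w : ℝ) ≤ Real.exp ((Real.log 4 + 4) * w) := by
  have h1 := Chebyshev.psi_le_const_mul_self (x := (w : ℝ)) (Nat.cast_nonneg w)
  rw [Chebyshev.psi_eq_log_lcmUpto] at h1
  have h2 : (0 : ℝ) < Nat.lcmUpto w := Nat.cast_pos.2 (Nat.lcmUpto_pos w)
  exact (Real.log_le_iff_le_exp h2).1 h1

/-- Choice of the approximations with rapidly increasing weights. -/
theorem select (ν : ℝ)
    (hneg : ∀ Q : ℕ, ∃ (p : ℤ) (q : ℕ), Q ≤ q ∧ |Real.pi - (p : ℝ) / (q : ℝ)| < 1 / (q : ℝ) ^ ν)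
    (g : ℝ) (hg : 1 ≤ g) (B C : ℕ) :
    ∃ (p : ℕ → ℤ) (q ω : ℕ → ℕ),
      (∀ i, B < ω i ∧ Real.exp ((g - 1) * ω i) ≤ q i ∧ (q i : ℝ) ≤ Real.exp (g * ω i) ∧
        |Real.pi - (p i : ℝ) / (q i : ℝ)| < 1 / (q i : ℝ) ^ ν) ∧
      ∀ l i, l < i → C * ω l < ω i := by
  have hg0 : 0 < g := by linarith
  have step : ∀ T : ℕ, ∃ (p : ℤ) (q ω : ℕ), T < ω ∧ Real.exp ((g - 1) * ω) ≤ q ∧
      (q : ℝ) ≤ Real.exp (g * ω) ∧ |Real.pi - (p : ℝ) / (q : ℝ)| < 1 / (q : ℝ) ^ ν := by
    intro T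
    obtain ⟨p, q, hq, hpq⟩ := hneg ⌈Real.exp (g * (T + g))⌉₊
    have h1 : Real.exp (g * (T + g)) ≤ q := Nat.ceil_le.1 hq
    have hq0 : (0 : ℝ) < q := lt_of_lt_of_le (Real.exp_pos _) h1
    have h2 : g * (T + g) ≤ Real.log q := (Real.le_log_iff_exp_le hq0).2 h1
    have h3 : (T : ℝ) + g ≤ Real.log q / g := by
      rw [le_div_iff₀ hg0]; linarith
    have hT : (0 : ℝ) ≤ T := Nat.cast_nonneg T
    have h4 : Real.log q / g ≤ ⌈Real.log q / g⌉₊ := Nat.le_ceil _
    have h5 : (⌈Real.log q / g⌉₊ : ℝ) < Real.log q / g + 1 := Nat.ceil_lt_add_one (by linarith)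
    refine ⟨p, q, ⌈Real.log q / g⌉₊, ?_, ?_, ?_, hpq⟩
    · have : (T : ℝ) < ⌈Real.log q / g⌉₊ := by linarith
      exact_mod_cast this
    · refine (Real.le_log_iff_exp_le hq0).1 ?_
      have h6 : ((⌈Real.log q / g⌉₊ : ℝ) - 1) * g < Real.log q := by
        rw [← lt_div_iff₀ hg0]; linarith
      nlinarith
    · refine (Real.log_le_iff_le_exp hq0).1 ?_
      rw [div_le_iff₀ hg0] at h4
      linarith
  choose p q ω h1 h2 h3 h4 using step
  let T : ℕ → ℕ := fun i => Nat.rec B (fun _ t => t + C * ω t) i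
  have hs : ∀ i, T (i + 1) = T i + C * ω (T i) := fun _ => rfl
  have hm : Monotone T := monotone_nat_of_le_succ fun i => by rw [hs]; omega
  refine ⟨fun i => p (T i), fun i => q (T i), fun i => ω (T i), fun i => ⟨?_, h2 _, h3 _, h4 _⟩,
    fun l i hli => ?_⟩
  · exact lt_of_le_of_lt (hm (Nat.zero_le i)) (h1 _)
  · have h5 := hm (Nat.succ_le_of_lt hli)
    rw [hs] at h5
    have h6 := h1 (T i)
    show C * ω (T l) < ω (T i)
    omega

end Crest.Agent.R11
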