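import Crest.Agent.R11.Basic

set_option autoImplicit false

namespace Crest.Agent.R11
open MvPolynomial

/-- Pigeonhole on a chain of minimal primes (Krull dimension of `ℂ[X_1..X_n]` is `n`). -/
theorem chain {n : ℕ} (a : ℕ → Ideal (MvPolynomial (Fin n) ℂ)) (hmono : Monotone a)
    (h0 : a 0 ≠ ⊥) (p : Ideal (MvPolynomial (Fin n) ℂ)) (hp : p.IsPrime) (hap : a n ≤ p) :
    ∃ j, j < n ∧ ∃ q ∈ (a j).minimalPrimes, a (j + 1) ≤ q ∧ q ≤ p := by
  by_contra hcon
  push Not at hcon
  have key : ∀ j : ℕ, j ≤ n → ∀ P : Ideal (MvPolynomial (Fin n) ℂ), P.IsPrime → a j ≤ P → P ≤ p →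
      ((j + 1 : ℕ) : ℕ∞) ≤ P.height := by
    intro j
    induction j with
    | zero =>
      intro _ P hP h1 _
      have hlt : (⊥ : Ideal (MvPolynomial (Fin n) ℂ)) < P :=
        bot_lt_iff_ne_bot.2 fun h => h0 (le_bot_iff.1 (h ▸ h1))
      have := Ideal.isPrime_bot (α := MvPolynomial (Fin n) ℂ)
      simpa using Ideal.height_add_one_le_of_lt_of_isPrime hlt
    | succ j ih =>
      intro hj P hP h1 h2
      obtain ⟨q, hq, hqP⟩ := Ideal.exists_minimalPrimes_le ((hmono (Nat.le_succ j)).trans h1)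
      have := hq.isPrime
      have hlt : q < P := lt_of_le_of_ne hqP fun h =>
        hcon j hj q hq (h ▸ h1) (hqP.trans h2)
      have h3 := ih (Nat.le_of_succ_le hj) q hq.isPrime hq.1.2 (hqP.trans h2)
      refine le_trans ?_ (Ideal.height_add_one_le_of_lt_of_isPrime hlt)
      rw [Nat.cast_succ]
      exact add_le_add_left h3 1
  have h1 := key n le_rfl p hp hap le_rfl
  have h2 : (p.height : WithBot ℕ∞) ≤ ringKrullDim (MvPolynomial (Fin n) ℂ) :=
    Ideal.height_le_ringKrullDim_of_isPrime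
  rw [MvPolynomial.ringKrullDim_of_isNoetherianRing, ringKrullDim_eq_zero_of_field, zero_add,
    Nat.card_eq_fintype_card, Fintype.card_fin] at h2
  have h3 : p.height ≤ (n : ℕ∞) := by exact_mod_cast h2
  have h4 : n + 1 ≤ n := by exact_mod_cast h1.trans h3
  omega

/-- Dual system from a triangular matrix of derivatives (adjugate). -/
theorem exists_dual {A κ : Type*} [CommRing A] [Algebra ℂ A] [Fintype κ] [DecidableEq κ]
    (q : Ideal A) (hqp : q.IsPrime) (E : κ → Derivation ℂ A A) (g : κ → A) (hg : ∀ i, g i ∈ q)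
    (r : κ → ℕ) (htri : ∀ i' i'', i' ≠ i'' → r i'' ≤ r i' → E i' (g i'') ∈ q)
    (hdiag : ∀ i, E i (g i) ∉ q) :
    ∃ (h : κ → A) (s : A), s ∉ q ∧ (∀ i, h i ∈ q) ∧
      ∀ i i', E i' (h i) - (if i = i' then s else 0) ∈ q := by
  set M : Matrix κ κ A := Matrix.of fun i' i'' => E i' (g i'') with hM
  refine ⟨fun i => ∑ i'', M.adjugate i'' i * g i'', M.det, ?_,
    fun i => q.sum_mem fun i'' _ => q.mul_mem_left _ (hg i''), fun i i' => ?_⟩
  · rw [← Ideal.Quotient.eq_zero_iff_mem, RingHom.map_det, Matrix.det_apply,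
      Finset.sum_eq_single 1]
    · simp only [Equiv.Perm.sign_one, one_smul, Equiv.Perm.coe_one, id]
      refine Finset.prod_ne_zero_iff.2 fun i _ h => hdiag i ?_
      exact Ideal.Quotient.eq_zero_iff_mem.1 h
    · intro σ _ hσ
      have : ∃ i, σ i ≠ i ∧ r i ≤ r (σ i) := by
        by_contra hc
        push Not at hc
        obtain ⟨i₀, hi₀⟩ : ∃ i, σ i ≠ i := by
          by_contra h'
          push Not at h'
          exact hσ (Equiv.ext h')
        have hlt : ∑ i, r (σ i) < ∑ i, r i := by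
          refine Finset.sum_lt_sum (fun i _ => ?_) ⟨i₀, Finset.mem_univ _, hc i₀ hi₀⟩
          by_cases h : σ i = i
          · rw [h]
          · exact (hc i h).le
        rw [Equiv.sum_comp σ r] at hlt
        exact lt_irrefl _ hlt
      obtain ⟨i, h1, h2⟩ := this
      rw [Finset.prod_eq_zero (Finset.mem_univ i), smul_zero]
      exact Ideal.Quotient.eq_zero_iff_mem.2 (htri _ _ h1 h2)
    · intro h
      exact absurd (Finset.mem_univ _) h
  · have h1 : (if i = i' then M.det else 0) = ∑ i'', M i' i'' * M.adjugate i'' i := by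
      rw [← Matrix.mul_apply, Matrix.mul_adjugate, Matrix.smul_apply, Matrix.one_apply]
      by_cases h : i = i'
      · simp [h]
      · simp [h, Ne.symm h]
    rw [h1, map_sum, ← Finset.sum_sub_distrib]
    refine q.sum_mem fun i'' _ => ?_
    rw [Derivation.leibniz, smul_eq_mul, smul_eq_mul, hM, Matrix.of_apply, mul_comm (E i' (g i'')),
      add_sub_cancel_left]
    exact q.mul_mem_right _ (hg i'')

end Crest.Agent.R11
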