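import Crest.Agent.R11.Analytic
import Crest.Agent.R11.CPoly
import Crest.Agent.R11.Sizes

set_option autoImplicit false

namespace Crest.Agent.R11
open MvPolynomial

theorem gauss_eq_zero (z : GaussianInt) (h : ‖(z : ℂ)‖ < 1) : (z : ℂ) = 0 := by
  have h1 : (z.norm : ℝ) < 1 := by
    rw [GaussianInt.intCast_real_norm, Complex.normSq_eq_norm_sq]
    nlinarith [norm_nonneg (z : ℂ)]
  have h2 : z.norm < 1 := by exact_mod_cast h1
  have h3 := GaussianInt.norm_nonneg z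
  rw [GaussianInt.toComplex_eq_zero, ← GaussianInt.norm_eq_zero]
  omega

theorem norm_Z_le (K k : ℕ) (hk : k ≤ K) (Y : ℂ) (hY : ‖Y‖ ≤ 1 / 2) :
    ‖(k : ℂ) * (2 * Real.pi * Complex.I) + Complex.log (1 + Y)‖ ≤ 7 * K + 1 := by
  refine (norm_add_le _ _).trans (add_le_add ?_ ?_)
  · have h1 : (k : ℝ) ≤ K := by exact_mod_cast hk
    have h2 := Real.pi_lt_d2
    simp only [norm_mul, Complex.norm_natCast, Complex.norm_ofNat, Complex.norm_real,
      Complex.norm_I, mul_one, Real.norm_eq_abs, abs_of_pos Real.pi_pos]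
    nlinarith [Real.pi_pos, (Nat.cast_nonneg k : (0 : ℝ) ≤ k)]
  · have := Complex.norm_log_one_add_half_le_self hY
    linarith

theorem norm_W_le (K k : ℕ) (hk : k ≤ K) (Y Xi : ℂ) (ϱ : ℝ) (hϱ : ϱ ≤ 1 / 2) (hY : ‖Y‖ = ϱ)
    (w Q : ℕ) (hw : 0 < w) (hQ : 0 < Q) (hX : ‖Xi‖ = Q * ϱ ^ w) (p : ℤ) (q : ℕ)
    (happ : 2 * |Real.pi - (p : ℝ) / (q : ℝ)| ≤ ϱ ^ w) :
    ‖Xi / Q + (k : ℂ) * (2 * Complex.I * ((p : ℂ) / q) - 2 * Real.pi * Complex.I) +
      (Complex.logTaylor w Y - Complex.log (1 + Y))‖ ≤ (K + 3) * ϱ ^ w := by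
  have hϱ0 : 0 ≤ ϱ := hY ▸ norm_nonneg Y
  have hQ' : (0 : ℝ) < Q := by exact_mod_cast hQ
  have h1 : ‖Xi / Q‖ = ϱ ^ w := by
    rw [norm_div, hX, Complex.norm_natCast]; field_simp
  have h2 : ‖(k : ℂ) * (2 * Complex.I * ((p : ℂ) / q) - 2 * Real.pi * Complex.I)‖ ≤ K * ϱ ^ w := by
    have : (2 * Complex.I * ((p : ℂ) / q) - 2 * Real.pi * Complex.I) =
        -(2 * Complex.I) * ((Real.pi - (p : ℝ) / (q : ℝ) : ℝ) : ℂ) := by push_cast; ring
    rw [this, norm_mul, norm_mul, Complex.norm_real, Real.norm_eq_abs, norm_neg, norm_mul,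
      Complex.norm_I, Complex.norm_natCast, Complex.norm_ofNat, mul_one]
    exact mul_le_mul (by exact_mod_cast hk) happ (by positivity) (Nat.cast_nonneg _)
  have h3 : ‖Complex.logTaylor w Y - Complex.log (1 + Y)‖ ≤ 2 * ϱ ^ w := by
    obtain ⟨w, rfl⟩ := Nat.exists_eq_succ_of_ne_zero hw.ne'
    rw [norm_sub_rev]
    refine (Complex.norm_log_sub_logTaylor_le w (by linarith)).trans ?_
    rw [hY]
    have h4 : (1 - ϱ)⁻¹ ≤ 2 := by
      rw [inv_le_comm₀ (by linarith) two_pos]; linarith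
    have h5 : (0 : ℝ) ≤ (1 - ϱ)⁻¹ := inv_nonneg.2 (by linarith)
    calc ϱ ^ (w + 1) * (1 - ϱ)⁻¹ / (w + 1) ≤ ϱ ^ (w + 1) * (1 - ϱ)⁻¹ :=
          div_le_self (by positivity) (by linarith [(Nat.cast_nonneg w : (0 : ℝ) ≤ w)])
      _ ≤ ϱ ^ (w + 1) * 2 := by gcongr
      _ = _ := by rw [Nat.succ_eq_add_one]; ring
  calc _ ≤ ‖Xi / Q‖ + ‖(k : ℂ) * (2 * Complex.I * ((p : ℂ) / q) - 2 * Real.pi * Complex.I)‖ +
        ‖Complex.logTaylor w Y - Complex.log (1 + Y)‖ := norm_add₃_le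
    _ ≤ _ := by rw [h1]; linarith

/-- A nontrivial linear relation among the jets, valid for all polynomials of degree `≤ n`. -/
theorem core {m K : ℕ} (ω : Fin (m + 1) → ℕ) (hω : ∀ i, 0 < ω i) (p : Fin m → ℤ) (q : Fin m → ℕ)
    (lamb e₁ e₂ : ℝ) (hl : 1 ≤ lamb) (he₁ : 0 ≤ e₁) (he₂ : 0 ≤ e₂) (hq : ∀ i, 0 < q i)
    (hQ1 : ∀ i, (QQ (q i) (ω i.succ) : ℝ) ≤ Real.exp (e₁ * ω i.succ))
    (hQ2 : ∀ i, Real.exp ((lamb - e₂) * ω i.succ) ≤ QQ (q i) (ω i.succ))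
    (happ : ∀ i, 2 * |Real.pi - (p i : ℝ) / (q i : ℝ)| ≤ Real.exp (-lamb * ω i.succ))
    (hA1 : ∀ i : Fin m, 8 * K + 4 ≤ ω i.succ) (hA0 : 2 * (7 * K + 1) ≤ ω 0)
    (n s₁ s₂ s₃ T₀ : ℕ) (H : ℝ)
    (hS : Sizes K (fun i : Fin m => ω i.succ) lamb e₁ e₂ n s₁ s₂ s₃ T₀ H) :
    ∃ (S : Finset (Fin K × (Fin (m + 1) →₀ ℕ))) (γ : Fin K × (Fin (m + 1) →₀ ℕ) → ℂ),
      (∀ b ∈ S, Finsupp.weight (vw ω) b.2 < s₁ + s₂) ∧ (∃ b ∈ S, γ b ≠ 0) ∧
      ∀ f ∈ Deg ω n, ∑ b ∈ S, γ b *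
        coeff b.2 (tau (fun i => cpoly b.1 (p i) (q i) (ω i.succ)) f) = 0 := by
  classical
  obtain ⟨hH, hT, hcard, hpig, hfin⟩ := hS
  set w : Fin m → ℕ := fun i => ω i.succ with hwdef
  have hw : ∀ i, 0 < w i := fun i => hω _
  set ϱ := Real.exp (-lamb) with hϱ
  have hϱ0 : 0 < ϱ := Real.exp_pos _
  have hϱ2 : ϱ ≤ 1 / 2 := by
    rw [hϱ, Real.exp_neg, inv_le_comm₀ (Real.exp_pos _) (by norm_num)]
    linarith [Real.add_one_le_exp lamb]
  have hϱw : ∀ j : ℕ, ϱ ^ j = Real.exp (-lamb * j) := fun j => by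
    rw [hϱ, ← Real.exp_nat_mul, mul_comm]
  let Q : Fin m → ℕ := fun i => QQ (q i) (w i)
  have hQpos : ∀ i, 0 < Q i := fun i => Nat.mul_pos (hq i) (Nat.lcmUpto_pos _)
  let T : Finset (Fin m →₀ ℕ) := (cnt_finite hw s₁).toFinset
  have hTcard : T.card = cnt w s₁ := (Set.ncard_eq_toFinset_card _ (cnt_finite hw s₁)).symm
  have hTmem : ∀ I : T, Finsupp.weight w I.1 ≤ s₁ := fun I =>
    (Set.Finite.mem_toFinset (cnt_finite hw s₁)).1 I.2
  have hβ : Fintype.card (Fin K × T × Fin s₂) = K * cnt w s₁ * s₂ := by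
    simp [hTcard, mul_assoc]
  let α : Fin K × T × Fin s₂ → (Fin (m + 1) →₀ ℕ) := fun b => Finsupp.cons b.2.2 b.2.1
  let c : Fin K → Fin m → Polynomial ℂ := fun k i => cpoly k (p i) (q i) (ω i.succ)
  let Rows : Finset (Fin (m + 1) →₀ ℕ) := (cnt_finite hω n).toFinset
  obtain ⟨N₁, hN₁⟩ := Finite.exists_le (fun x : Fin K × Rows × Fin (m + 1) =>
    degreeOf x.2.2 (tau (c x.1) (monomial x.2.1 1)))
  obtain ⟨N₂, hN₂⟩ := Finite.exists_le (fun x : (Fin K × T × Fin s₂) × Fin (m + 1) => α x.1 x.2)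
  let ρ : Fin (m + 1) → ℝ := Fin.cons ϱ (fun i => Q i * ϱ ^ w i)
  have hρ : ∀ i, 0 < ρ i := by
    intro i
    refine Fin.cases ?_ (fun j => ?_) i
    · exact hϱ0
    · exact mul_pos (by exact_mod_cast hQpos j) (pow_pos hϱ0 _)
  obtain ⟨P, lam, hP, hlam, hext⟩ := extract ρ hρ (N₁ + N₂ + 1) (Nat.succ_pos _)
  have hP0 : ∀ s, ‖P s 0‖ = ϱ := fun s => hP s 0
  have hPs : ∀ s (i : Fin m), ‖P s i.succ‖ = Q i * ϱ ^ w i := fun s i => hP s i.succ
  let Z : (Fin K × T × Fin s₂) → (Fin (m + 1) → Fin (N₁ + N₂ + 1)) → ℂ :=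
    fun b s => ((b.1 : ℕ) : ℂ) * (2 * Real.pi * Complex.I) + Complex.log (1 + P s 0)
  let W : (Fin K × T × Fin s₂) → (Fin (m + 1) → Fin (N₁ + N₂ + 1)) → Fin m → ℂ :=
    fun b s i => P s i.succ / Q i +
      ((b.1 : ℕ) : ℂ) * (2 * Complex.I * ((p i : ℂ) / q i) - 2 * Real.pi * Complex.I) +
      (Complex.logTaylor (w i) (P s 0) - Complex.log (1 + P s 0))
  have hB : ∀ b, ∑ s, ‖lam (α b) s‖ ≤ Real.exp (e₂ * s₁ + lamb * s₂) := by
    intro b
    refine (hlam _).trans ?_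
    rw [Fin.prod_univ_succ, Real.exp_add, mul_comm]
    refine mul_le_mul ?_ ?_ (by positivity) (Real.exp_pos _).le
    · have h1 : ∀ i : Fin m, (ρ i.succ)⁻¹ ^ α b i.succ ≤ Real.exp (e₂ * (b.2.1.1 i * w i : ℕ)) := by
        intro i
        have h2 : (ρ i.succ)⁻¹ ≤ Real.exp (e₂ * w i) := by
          rw [inv_le_comm₀ (hρ _) (Real.exp_pos _), ← Real.exp_neg]
          change _ ≤ (Q i : ℝ) * ϱ ^ w i
          rw [hϱw]
          refine le_trans (le_of_eq ?_) (mul_le_mul_of_nonneg_right (hQ2 i) (Real.exp_pos _).le)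
          rw [← Real.exp_add]; congr 1; simp only [hwdef]; ring
        calc (ρ i.succ)⁻¹ ^ α b i.succ ≤ Real.exp (e₂ * w i) ^ α b i.succ :=
              pow_le_pow_left₀ (inv_nonneg.2 (hρ _).le) h2 _
          _ = _ := by
              rw [← Real.exp_nat_mul]; congr 1; simp only [α, Finsupp.cons_succ]; push_cast; ring
      refine (Finset.prod_le_prod (fun i _ => by have := hρ i.succ; positivity)
        (fun i _ => h1 i)).trans ?_
      rw [← Real.exp_sum, ← Finset.mul_sum, ← Nat.cast_sum, ← weight_eq_sum]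
      exact Real.exp_le_exp.2 (mul_le_mul_of_nonneg_left (by exact_mod_cast hTmem _) he₂)
    · change ϱ⁻¹ ^ (b.2.2 : ℕ) ≤ _
      rw [inv_pow, hϱw, ← Real.exp_neg, Real.exp_le_exp]
      have : ((b.2.2 : ℕ) : ℝ) ≤ s₂ := by exact_mod_cast b.2.2.2.le
      nlinarith
  obtain ⟨cc, hcc, hbound⟩ := analytic (fun b s => lam (α b) s) Z W w hw
    (Real.exp (e₂ * s₁ + lamb * s₂)) (7 * K + 1) (K + 3) ϱ H s₃ T₀ n (Real.exp_pos _)
    (by linarith [(Nat.cast_nonneg K : (0 : ℝ) ≤ K)])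
    (by linarith [(Nat.cast_nonneg K : (0 : ℝ) ≤ K)]) hϱ0 (by linarith) hH hB
    (fun b s => norm_Z_le K _ b.1.2.le _ ((hP0 s).le.trans hϱ2))
    (fun b s i => norm_W_le K _ b.1.2.le _ _ ϱ hϱ2 (hP0 s) (w i) (Q i) (hw i) (hQpos i) (hPs s i)
      (p i) (q i) (by rw [hϱw]; exact happ i))
    hT (by rw [hβ]; exact hcard) (by rw [hβ]; exact hpig)
  -- the value on a row
  have hrow : ∀ a : Fin (m + 1) →₀ ℕ, Finsupp.weight ω a ≤ n →
      ∑ b, (cc b : ℂ) * coeff (α b) (tau (c b.1) (monomial a 1)) = 0 := by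
    intro a ha
    have haR : a ∈ Rows := by simpa [Rows] using ha
    have hwa : a 0 * ω 0 + ∑ i : Fin m, a i.succ * w i ≤ n := by
      rwa [weight_eq_sum, Fin.sum_univ_succ] at ha
    have hsum : ∑ i : Fin m, a i.succ ≤ ∑ i : Fin m, a i.succ * w i :=
      Finset.sum_le_sum fun i _ => Nat.le_mul_of_pos_right _ (hw i)
    have heq : ∑ b, (cc b : ℂ) * coeff (α b) (tau (c b.1) (monomial a 1)) =
        (∏ i : Fin m, (Q i : ℂ) ^ a i.succ) * ∑ b, (cc b : ℂ) * ∑ s, lam (α b) s *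
          ((∏ i, (Z b s + W b s i) ^ a i.succ) * Complex.exp (a 0 * Z b s)) := by
      rw [Finset.mul_sum]
      refine Finset.sum_congr rfl fun b _ => ?_
      rw [hext _ (fun i => lt_of_le_of_lt (hN₁ (b.1, ⟨a, haR⟩, i)) (by omega)) _
        (fun i => lt_of_le_of_lt (hN₂ (b, i)) (by omega)), mul_left_comm]
      congr 1
      rw [Finset.mul_sum]
      refine Finset.sum_congr rfl fun s _ => ?_
      have hne : 1 + P s 0 ≠ 0 := by
        intro h
        have h1 : P s 0 = -1 := by linear_combination h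
        have h2 := hP0 s
        rw [h1] at h2
        simp at h2
        linarith
      have h1 : Complex.exp (a 0 * Z b s) = (1 + P s 0) ^ a 0 := by
        rw [Complex.exp_nat_mul]
        simp only [Z]
        rw [Complex.exp_add, Complex.exp_log hne, Complex.exp_nat_mul_two_pi_mul_I, one_mul]
      have h2 : ∀ i : Fin m, P s i.succ + (c b.1 i).eval (P s 0) = Q i * (Z b s + W b s i) := by
        intro i
        have hq' : (q i : ℂ) ≠ 0 := by exact_mod_cast (hq i).ne'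
        have hL : (Nat.lcmUpto (w i) : ℂ) ≠ 0 := by exact_mod_cast Nat.lcmUpto_ne_zero _
        simp only [c, cpoly_eval, Z, W, Q, QQ, hwdef] at hL ⊢
        push_cast
        field_simp
        ring
      rw [eval_tau_monomial, h1]
      simp_rw [h2, mul_pow, Finset.prod_mul_distrib]
      ring
    choose z hz using fun b : Fin K × T × Fin s₂ =>
      coeff_tau_gauss (b.1 : ℕ) p q (fun i => ω i.succ) a (α b)
    have hgauss : ∑ b, (cc b : ℂ) * coeff (α b) (tau (c b.1) (monomial a 1)) =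
        ((∑ b, (cc b : GaussianInt) * z b : GaussianInt) : ℂ) := by
      rw [map_sum]
      refine Finset.sum_congr rfl fun b _ => ?_
      rw [map_mul, map_intCast, ← hz b]
    rw [hgauss]
    refine gauss_eq_zero _ ?_
    rw [← hgauss, heq, norm_mul]
    refine lt_of_le_of_lt ?_ hfin
    have h1 := hbound (fun i => a i.succ) (a 0) (by omega)
    rw [hβ] at h1
    have h2 : ‖∏ i : Fin m, (Q i : ℂ) ^ a i.succ‖ ≤
        Real.exp (e₁ * (∑ i : Fin m, a i.succ * w i : ℕ)) := by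
      rw [norm_prod, Nat.cast_sum, Finset.mul_sum, Real.exp_sum]
      refine Finset.prod_le_prod (fun i _ => norm_nonneg _) fun i _ => ?_
      rw [norm_pow, Complex.norm_natCast]
      calc (Q i : ℝ) ^ a i.succ ≤ Real.exp (e₁ * w i) ^ a i.succ :=
            pow_le_pow_left₀ (Nat.cast_nonneg _) (hQ1 i) _
        _ = _ := by rw [← Real.exp_nat_mul]; congr 1; push_cast; ring
    have h3 : ((K : ℝ) + 3 + (7 * K + 1)) ^ (∑ i : Fin m, a i.succ) ≤
        Real.exp (∑ i : Fin m, a i.succ * w i : ℕ) := by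
      rw [← Finset.prod_pow_eq_pow_sum, Nat.cast_sum, Real.exp_sum]
      refine Finset.prod_le_prod (fun i _ => by positivity) fun i _ => ?_
      have h4 : (K : ℝ) + 3 + (7 * K + 1) ≤ Real.exp (w i) := by
        have h5 : ((8 * K + 4 : ℕ) : ℝ) ≤ w i := by exact_mod_cast hA1 i
        push_cast at h5
        linarith [Real.add_one_le_exp (w i : ℝ)]
      calc _ ≤ Real.exp (w i) ^ a i.succ := pow_le_pow_left₀ (by positivity) h4 _
        _ = _ := by rw [← Real.exp_nat_mul]; push_cast; rfl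
    have h4 : Real.exp (2 * (a 0 : ℝ) * (7 * K + 1)) ≤ Real.exp (a 0 * ω 0 : ℕ) := by
      have h5 : ((2 * (7 * K + 1) : ℕ) : ℝ) ≤ ω 0 := by exact_mod_cast hA0
      push_cast at h5 ⊢
      exact Real.exp_le_exp.2 (by nlinarith [(Nat.cast_nonneg (a 0) : (0 : ℝ) ≤ a 0)])
    have h5 : Real.exp (e₁ * (∑ i : Fin m, a i.succ * w i : ℕ)) *
        (Real.exp (∑ i : Fin m, a i.succ * w i : ℕ) * Real.exp (a 0 * ω 0 : ℕ)) ≤
        Real.exp ((e₁ + 1) * n) := by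
      rw [← Real.exp_add, ← Real.exp_add, Real.exp_le_exp]
      have h6 : ((a 0 * ω 0 + ∑ i : Fin m, a i.succ * w i : ℕ) : ℝ) ≤ n := by exact_mod_cast hwa
      rw [Nat.cast_add] at h6
      have h7 : (0 : ℝ) ≤ (a 0 * ω 0 : ℕ) := Nat.cast_nonneg _
      nlinarith
    have hH0 : 0 ≤ H := by linarith
    calc _ ≤ Real.exp (e₁ * (∑ i : Fin m, a i.succ * w i : ℕ)) *
          (2 * ((K * cnt w s₁ * s₂ : ℕ) : ℝ) * H * Real.exp (e₂ * s₁ + lamb * s₂) *
            Real.exp (∑ i : Fin m, a i.succ * w i : ℕ) * Real.exp (a 0 * ω 0 : ℕ) * ϱ ^ s₃) := by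
          refine mul_le_mul h2 (h1.trans ?_) (norm_nonneg _) (Real.exp_pos _).le
          gcongr
      _ = 2 * ((K * cnt w s₁ * s₂ : ℕ) : ℝ) * H * Real.exp (e₂ * s₁ + lamb * s₂) *
          (Real.exp (e₁ * (∑ i : Fin m, a i.succ * w i : ℕ)) *
            (Real.exp (∑ i : Fin m, a i.succ * w i : ℕ) * Real.exp (a 0 * ω 0 : ℕ))) * ϱ ^ s₃ := by
          ring
      _ ≤ _ := by gcongr
  let φ : Fin K × T × Fin s₂ → Fin K × (Fin (m + 1) →₀ ℕ) := fun b => (b.1, α b)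
  have hφ : Function.Injective φ := by
    rintro ⟨k, I, t⟩ ⟨k', I', t'⟩ h
    simp only [φ, α, Prod.mk.injEq] at h
    obtain ⟨h1, h2⟩ := Finsupp.cons_injective2 h.2
    exact Prod.ext h.1 (Prod.ext (Subtype.ext h2) (Fin.ext h1))
  refine ⟨Finset.univ.image φ, Function.extend φ (fun b => (cc b : ℂ)) 0, ?_, ?_, ?_⟩
  · intro x hx
    obtain ⟨b, -, rfl⟩ := Finset.mem_image.1 hx
    have h1 := hTmem b.2.1
    have h2 := b.2.2.2
    rw [weight_eq_sum] at h1 ⊢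
    simp only [φ, α, Fin.sum_univ_succ, Finsupp.cons_zero, Finsupp.cons_succ, vw_zero, vw_succ]
    simp only [hwdef] at h1
    omega
  · obtain ⟨b, hb⟩ := Function.ne_iff.1 hcc
    refine ⟨φ b, Finset.mem_image_of_mem _ (Finset.mem_univ _), ?_⟩
    rw [hφ.extend_apply]
    exact_mod_cast hb
  · intro f hf
    rw [Finset.sum_image (fun _ _ _ _ h => hφ h)]
    simp only [hφ.extend_apply]
    rw [Deg_eq_span] at hf
    induction hf using Submodule.span_induction with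
    | mem f hf =>
      obtain ⟨a, ha, rfl⟩ := hf
      exact hrow a ha
    | zero => simp
    | add f g _ _ hf hg =>
      simp only [map_add, coeff_add, mul_add, Finset.sum_add_distrib, hf, hg, add_zero]
    | smul r f _ hf =>
      simp only [map_smul, coeff_smul, smul_eq_mul, mul_left_comm _ r, ← Finset.mul_sum, hf,
        mul_zero]

end Crest.Agent.R11
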