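import Crest.Agent.R11.Basic

set_option autoImplicit false

namespace Crest.Agent.R11
open MvPolynomial

/-- Orthogonality of the characters of `ℤ/N`. -/
theorem root_orth {N : ℕ} {ζ : ℂ} (hζ : IsPrimitiveRoot ζ N) {a b : ℕ} (ha : a < N) (hb : b < N) :
    ∑ j : Fin N, ((ζ ^ (j : ℕ))⁻¹ ^ a * (ζ ^ (j : ℕ)) ^ b) = if a = b then (N : ℂ) else 0 := by
  have hN : N ≠ 0 := by omega
  have h0 : ζ ≠ 0 := hζ.ne_zero hN
  have e : ∀ j : ℕ, (ζ ^ j)⁻¹ ^ a * (ζ ^ j) ^ b = ((ζ ^ a)⁻¹ * ζ ^ b) ^ j := by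
    intro j
    simp only [mul_pow, inv_pow, ← pow_mul, mul_comm a j, mul_comm b j]
  simp only [e]
  split_ifs with hab
  · subst hab
    simp [inv_mul_cancel₀ (pow_ne_zero a h0)]
  · have h1 : (ζ ^ a)⁻¹ * ζ ^ b ≠ 1 := by
      intro h
      rw [inv_mul_eq_one₀ (pow_ne_zero a h0)] at h
      exact hab (hζ.pow_inj ha hb h)
    have h2 : ((ζ ^ a)⁻¹ * ζ ^ b) ^ N = 1 := by
      rw [mul_pow, inv_pow, ← pow_mul, ← pow_mul, mul_comm a N, mul_comm b N, pow_mul, pow_mul,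
        hζ.pow_eq_one]
      simp
    rw [Fin.sum_univ_eq_sum_range (fun j => ((ζ ^ a)⁻¹ * ζ ^ b) ^ j) N, geom_sum_eq h1, h2]
    simp

/-- Coefficient extraction by averaging over roots of unity on a torus. -/
theorem extract {σ : Type*} [Fintype σ] [DecidableEq σ] (ρ : σ → ℝ) (hρ : ∀ i, 0 < ρ i) (N : ℕ)
    (hN : 0 < N) :
    ∃ (P : (σ → Fin N) → σ → ℂ) (lam : (σ →₀ ℕ) → (σ → Fin N) → ℂ),
      (∀ s i, ‖P s i‖ = ρ i) ∧ (∀ α, ∑ s, ‖lam α s‖ ≤ ∏ i, (ρ i)⁻¹ ^ α i) ∧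
      ∀ f : MvPolynomial σ ℂ, (∀ i, degreeOf i f < N) → ∀ α : σ →₀ ℕ, (∀ i, α i < N) →
        coeff α f = ∑ s, lam α s * eval (P s) f := by
  obtain ⟨ζ, hζ⟩ : ∃ ζ : ℂ, IsPrimitiveRoot ζ N := ⟨_, Complex.isPrimitiveRoot_exp N hN.ne'⟩
  have hζ1 : ‖ζ‖ = 1 := hζ.norm'_eq_one hN.ne'
  have hNC : (N : ℂ) ≠ 0 := by exact_mod_cast hN.ne'
  have hNR : (0 : ℝ) < N := by exact_mod_cast hN
  have hρC : ∀ i, (ρ i : ℂ) ≠ 0 := fun i => by exact_mod_cast (hρ i).ne'
  have hP : ∀ (s : σ → Fin N) i, ‖(ρ i : ℂ) * ζ ^ (s i : ℕ)‖ = ρ i := by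
    intro s i
    rw [norm_mul, norm_pow, hζ1, one_pow, mul_one, Complex.norm_real, Real.norm_eq_abs,
      abs_of_pos (hρ i)]
  refine ⟨fun s i => (ρ i : ℂ) * ζ ^ (s i : ℕ),
    fun α s => ∏ i, ((N : ℂ)⁻¹ * ((ρ i : ℂ) * ζ ^ (s i : ℕ))⁻¹ ^ α i), hP, fun α => ?_, ?_⟩
  · have e : ∀ s : σ → Fin N, ‖∏ i, ((N : ℂ)⁻¹ * ((ρ i : ℂ) * ζ ^ (s i : ℕ))⁻¹ ^ α i)‖ =
        ((N : ℝ) ^ Fintype.card σ)⁻¹ * ∏ i, (ρ i)⁻¹ ^ α i := by
      intro s
      rw [norm_prod]
      simp only [norm_mul (N : ℂ)⁻¹, norm_pow, norm_inv, hP, Complex.norm_natCast]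
      rw [Finset.prod_mul_distrib, Finset.prod_const, Finset.card_univ, inv_pow]
    simp only [e]
    rw [Finset.sum_const, Finset.card_univ, Fintype.card_fun, Fintype.card_fin, nsmul_eq_mul,
      ← mul_assoc, Nat.cast_pow, mul_inv_cancel₀ (pow_ne_zero _ hNR.ne'), one_mul]
  · intro f hf α hα
    have key : ∀ d : σ →₀ ℕ, (∀ i, d i < N) →
        ∑ s : σ → Fin N, (∏ i, ((N : ℂ)⁻¹ * ((ρ i : ℂ) * ζ ^ (s i : ℕ))⁻¹ ^ α i)) *
          ∏ i, ((ρ i : ℂ) * ζ ^ (s i : ℕ)) ^ d i = if α = d then 1 else 0 := by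
      intro d hd
      simp only [← Finset.prod_mul_distrib]
      have h1 := Finset.prod_univ_sum (fun _ : σ => (Finset.univ : Finset (Fin N)))
        (fun i (j : Fin N) => (N : ℂ)⁻¹ * ((ρ i : ℂ) * ζ ^ (j : ℕ))⁻¹ ^ α i *
          ((ρ i : ℂ) * ζ ^ (j : ℕ)) ^ d i)
      rw [Fintype.piFinset_univ] at h1
      rw [← h1]
      have h2 : ∀ i, ∑ j : Fin N, (N : ℂ)⁻¹ * ((ρ i : ℂ) * ζ ^ (j : ℕ))⁻¹ ^ α i *
          ((ρ i : ℂ) * ζ ^ (j : ℕ)) ^ d i = if α i = d i then 1 else 0 := by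
        intro i
        have h3 : ∀ j : Fin N, (N : ℂ)⁻¹ * ((ρ i : ℂ) * ζ ^ (j : ℕ))⁻¹ ^ α i *
            ((ρ i : ℂ) * ζ ^ (j : ℕ)) ^ d i = ((N : ℂ)⁻¹ * ((ρ i : ℂ)⁻¹ ^ α i * (ρ i : ℂ) ^ d i)) *
              ((ζ ^ (j : ℕ))⁻¹ ^ α i * (ζ ^ (j : ℕ)) ^ d i) := by
          intro j
          rw [mul_inv, mul_pow, mul_pow]; ring
        simp only [h3]
        rw [← Finset.mul_sum, root_orth hζ (hα i) (hd i)]
        split_ifs with h
        · rw [h, ← mul_pow, inv_mul_cancel₀ (hρC i), one_pow, mul_one, inv_mul_cancel₀ hNC]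
        · simp
      simp only [h2]
      split_ifs with h
      · subst h; simp
      · obtain ⟨i, hi⟩ : ∃ i, α i ≠ d i := by
          by_contra hc
          exact h (Finsupp.ext fun i => by_contra fun h' => hc ⟨i, h'⟩)
        exact Finset.prod_eq_zero (Finset.mem_univ i) (if_neg hi)
    simp only [eval_eq', Finset.mul_sum]
    rw [Finset.sum_comm]
    have h4 : ∀ d ∈ f.support, ∑ s : σ → Fin N,
        (∏ i, ((N : ℂ)⁻¹ * ((ρ i : ℂ) * ζ ^ (s i : ℕ))⁻¹ ^ α i)) *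
          (coeff d f * ∏ i, ((ρ i : ℂ) * ζ ^ (s i : ℕ)) ^ d i) =
            if α = d then coeff d f else 0 := by
      intro d hd
      have hd' : ∀ i, d i < N := fun i => lt_of_le_of_lt (monomial_le_degreeOf i hd) (hf i)
      simp only [mul_left_comm _ (coeff d f)]
      rw [← Finset.mul_sum, key d hd']
      split_ifs <;> simp
    rw [Finset.sum_congr rfl h4, Finset.sum_ite_eq]
    split_ifs with h
    · rfl
    · exact notMem_support_iff.1 h

attribute [local instance] Matrix.seminormedAddCommGroup in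
/-- Siegel's lemma with an entrywise bound and an integer exponent condition. -/
theorem siegel_int {α β : Type*} [Fintype α] [Fintype β] (A : α → β → ℤ) (M H : ℝ)
    (hM : 1 ≤ M) (hH : 1 ≤ H) (hA : ∀ μ b, |(A μ b : ℝ)| ≤ M)
    (hcard : Fintype.card α < Fintype.card β)
    (hpig : ((Fintype.card β : ℝ) * M) ^ Fintype.card α ≤ H ^ (Fintype.card β - Fintype.card α)) :
    ∃ c : β → ℤ, c ≠ 0 ∧ (∀ b, |(c b : ℝ)| ≤ H) ∧ ∀ μ, ∑ b, A μ b * c b = 0 := by
  classical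
  rcases Nat.eq_zero_or_pos (Fintype.card α) with h0 | h0
  · have : Nonempty β := Fintype.card_pos_iff.1 (by omega)
    have : IsEmpty α := Fintype.card_eq_zero_iff.1 h0
    refine ⟨fun _ => 1, ?_, fun _ => by simpa using hH, fun μ => isEmptyElim μ⟩
    intro h
    have := congrFun h (Classical.arbitrary β)
    simp at this
  obtain ⟨c, hc0, hc1, hc2⟩ :=
    Int.Matrix.exists_ne_zero_int_vec_norm_le (Matrix.of A) hcard h0
  have hA' : ‖Matrix.of A‖ ≤ M := by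
    rw [Matrix.norm_le_iff (by linarith)]
    intro i j
    rw [Matrix.of_apply, Int.norm_eq_abs]
    exact hA i j
  have hn : (0 : ℝ) < (Fintype.card β : ℝ) - Fintype.card α := by
    have : (Fintype.card α : ℝ) < Fintype.card β := by exact_mod_cast hcard
    linarith
  have hle : ((Fintype.card β : ℝ) * max 1 ‖Matrix.of A‖) ^
      ((Fintype.card α : ℝ) / (Fintype.card β - Fintype.card α)) ≤ H := by
    calc _ ≤ ((Fintype.card β : ℝ) * M) ^
          ((Fintype.card α : ℝ) / (Fintype.card β - Fintype.card α)) := by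
          gcongr
          exact max_le hM hA'
      _ = (((Fintype.card β : ℝ) * M) ^ Fintype.card α) ^
          (((Fintype.card β - Fintype.card α : ℕ) : ℝ))⁻¹ := by
          rw [← Real.rpow_natCast, ← Real.rpow_mul (by positivity), Nat.cast_sub hcard.le,
            div_eq_mul_inv]
      _ ≤ (H ^ (Fintype.card β - Fintype.card α)) ^
          (((Fintype.card β - Fintype.card α : ℕ) : ℝ))⁻¹ := by gcongr
      _ = H := Real.pow_rpow_inv_natCast (by linarith) (by omega)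
  refine ⟨c, hc0, fun b => ?_, fun μ => ?_⟩
  · have := (norm_le_pi_norm c b).trans (hc2.trans hle)
    rwa [Int.norm_eq_abs] at this
  · exact congrFun hc1 μ

/-- Approximate Siegel lemma for complex linear forms. -/
theorem approx_siegel {α β : Type*} [Fintype α] [Fintype β] (a : α → β → ℂ) (B S H : ℝ)
    (hB : 0 < B) (hS : 1 ≤ S) (hH : 1 ≤ H) (ha : ∀ μ b, ‖a μ b‖ ≤ B)
    (hcard : 2 * Fintype.card α < Fintype.card β)
    (hpig : ((Fintype.card β : ℝ) * (S + 1)) ^ (2 * Fintype.card α) ≤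
      H ^ (Fintype.card β - 2 * Fintype.card α)) :
    ∃ c : β → ℤ, c ≠ 0 ∧ (∀ b, |(c b : ℝ)| ≤ H) ∧
      ∀ μ, ‖∑ b, (c b : ℂ) * a μ b‖ ≤ Fintype.card β * H * B / S := by
  have hS0 : 0 < S := by linarith
  set z : α → β → ℂ := fun μ b => a μ b * ((S / B : ℝ) : ℂ) with hz
  have hzn : ∀ μ b, ‖z μ b‖ ≤ S := by
    intro μ b
    simp only [hz]
    rw [norm_mul, Complex.norm_real, Real.norm_eq_abs, abs_of_pos (by positivity)]
    calc ‖a μ b‖ * (S / B) ≤ B * (S / B) := by gcongr; exact ha μ b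
      _ = S := by field_simp
  have hround : ∀ x : ℝ, |x| ≤ S → |((round x : ℤ) : ℝ)| ≤ S + 1 := by
    intro x hx
    have h1 := abs_sub_round x
    have h2 := abs_sub_abs_le_abs_sub ((round x : ℤ) : ℝ) x
    rw [abs_sub_comm] at h2
    linarith
  have hc2 : Fintype.card (α ⊕ α) = 2 * Fintype.card α := by rw [Fintype.card_sum]; ring
  obtain ⟨c, hc0, hcH, hc⟩ := siegel_int (α := α ⊕ α) (β := β)
    (Sum.elim (fun μ b => round (z μ b).re) (fun μ b => round (z μ b).im)) (S + 1) H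
    (by linarith) hH (by
      rintro (μ | μ) b
      · exact hround _ ((Complex.abs_re_le_norm _).trans (hzn μ b))
      · exact hround _ ((Complex.abs_im_le_norm _).trans (hzn μ b)))
    (by rwa [hc2]) (by rwa [hc2])
  refine ⟨c, hc0, hcH, fun μ => ?_⟩
  set w : β → ℂ := fun b => ((round (z μ b).re : ℤ) : ℂ) + ((round (z μ b).im : ℤ) : ℂ) * Complex.I
    with hw
  have hw0 : ∑ b, (c b : ℂ) * w b = 0 := by
    have h1 : ∑ b, ((round (z μ b).re : ℤ) : ℂ) * c b = 0 := by exact_mod_cast hc (Sum.inl μ)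
    have h2 : ∑ b, ((round (z μ b).im : ℤ) : ℂ) * c b = 0 := by exact_mod_cast hc (Sum.inr μ)
    calc ∑ b, (c b : ℂ) * w b = ∑ b, ((round (z μ b).re : ℤ) : ℂ) * c b +
          (∑ b, ((round (z μ b).im : ℤ) : ℂ) * c b) * Complex.I := by
          rw [Finset.sum_mul, ← Finset.sum_add_distrib]
          refine Finset.sum_congr rfl fun b _ => ?_
          simp only [hw]; ring
      _ = 0 := by rw [h1, h2]; simp
  have hw1 : ∀ b, ‖z μ b - w b‖ ≤ 1 := by
    intro b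
    refine (Complex.norm_le_abs_re_add_abs_im _).trans ?_
    have h1 := abs_sub_round (z μ b).re
    have h2 := abs_sub_round (z μ b).im
    have e1 : (z μ b - w b).re = (z μ b).re - round (z μ b).re := by simp [hw]
    have e2 : (z μ b - w b).im = (z μ b).im - round (z μ b).im := by simp [hw]
    rw [e1, e2]; linarith
  have e : ∑ b, (c b : ℂ) * a μ b = ((B / S : ℝ) : ℂ) * ∑ b, (c b : ℂ) * (z μ b - w b) := by
    simp only [mul_sub, Finset.sum_sub_distrib, hw0, sub_zero, Finset.mul_sum]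
    refine Finset.sum_congr rfl fun b _ => ?_
    have hB' : (B : ℂ) ≠ 0 := by exact_mod_cast hB.ne'
    have hS' : (S : ℂ) ≠ 0 := by exact_mod_cast hS0.ne'
    simp only [hz]; push_cast; field_simp
  have h3 : ‖∑ b, (c b : ℂ) * (z μ b - w b)‖ ≤ Fintype.card β * H := by
    refine (norm_sum_le _ _).trans ?_
    rw [← Finset.card_univ, ← nsmul_eq_mul]
    refine Finset.sum_le_card_nsmul _ _ _ fun b _ => ?_
    rw [norm_mul, Complex.norm_intCast]
    calc |(c b : ℝ)| * ‖z μ b - w b‖ ≤ H * 1 := by gcongr; exacts [hcH b, hw1 b]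
      _ = H := mul_one _
  rw [e, norm_mul, Complex.norm_real, Real.norm_eq_abs, abs_of_pos (by positivity)]
  calc B / S * ‖∑ b, (c b : ℂ) * (z μ b - w b)‖ ≤ B / S * (Fintype.card β * H) := by gcongr
    _ = _ := by ring

end Crest.Agent.R11
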