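import Crest.Agent.R11.Basic

set_option autoImplicit false

namespace Crest.Agent.R11
open MvPolynomial

theorem params_exists_m {r A : ℝ} (hr0 : 0 ≤ r) (hr : r < 1) :
    ∃ m : ℕ, 0 < m ∧ A * ((m + 1) * r ^ m) < 1 := by
  have h1 := tendsto_self_mul_const_pow_of_lt_one hr0 hr
  have h2 := tendsto_pow_atTop_nhds_zero_of_lt_one hr0 hr
  have h3 : Filter.Tendsto (fun m : ℕ => A * ((m + 1) * r ^ m)) Filter.atTop (nhds 0) := by
    have := (h1.add h2).const_mul A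
    simp only [add_zero, mul_zero] at this
    refine this.congr fun m => ?_
    ring
  obtain ⟨m, hm1, hm2⟩ :=
    ((h3.eventually (gt_mem_nhds one_pos)).and (Filter.eventually_gt_atTop 0)).exists
  exact ⟨m, hm2, hm1⟩

/-- The discrete parameters. -/
theorem params_disc {c ε x₁ x₂ : ℝ} (hc : 0 ≤ c) (hε : 0 < ε) (hx₂ : 0 < x₂) (h12 : x₂ ≤ x₁)
    (hy : x₂ + 3 * ε ≤ 1) (hr : x₁ ^ 2 * (x₂ + 3 * ε) < x₂ ^ 2) :
    ∃ m K Cst ω₀ : ℕ, 0 < m ∧ 1 ≤ Cst ∧ Cst < ω₀ ∧ 2 * (7 * K + 1) ≤ ω₀ ∧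
      c * x₁ ^ m < K * ε * x₂ ^ m ∧
      (K : ℝ) * ω₀ * (x₂ + 2 * ε + (m + 1) / Cst) ^ (m + 1) < 1 := by
  set b : ℝ := x₁ / x₂ with hb
  have hb1 : 1 ≤ b := (one_le_div hx₂).2 h12
  set y : ℝ := x₂ + 3 * ε with hydef
  have hy0 : 0 ≤ y := by positivity
  have hr1 : b ^ 2 * y < 1 := by
    rw [hb, div_pow, div_mul_eq_mul_div, div_lt_one (by positivity)]
    exact hr
  set C' : ℝ := c / ε with hC'
  have hC'0 : 0 ≤ C' := by positivity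
  obtain ⟨m, hm0, hm⟩ := params_exists_m (A := (C' + 1) * (1 / ε + 4 + 14 * (C' + 1)))
    (by positivity : 0 ≤ b ^ 2 * y) hr1
  have hbm : 1 ≤ b ^ m := one_le_pow₀ hb1
  have hm1 : (1 : ℝ) ≤ m + 1 := by linarith [(Nat.cast_nonneg m : (0 : ℝ) ≤ m)]
  have hq : (0 : ℝ) < (m + 1) / ε := by positivity
  have hCst1 : 1 ≤ ⌈((m : ℝ) + 1) / ε⌉₊ := Nat.one_le_iff_ne_zero.2 (Nat.ceil_pos.2 hq).ne'
  refine ⟨m, ⌊C' * b ^ m⌋₊ + 1, ⌈((m : ℝ) + 1) / ε⌉₊,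
    ⌈((m : ℝ) + 1) / ε⌉₊ + 1 + 2 * (7 * (⌊C' * b ^ m⌋₊ + 1) + 1), hm0, hCst1, by omega, by omega,
    ?_, ?_⟩
  · have h1 : C' * b ^ m < ((⌊C' * b ^ m⌋₊ + 1 : ℕ) : ℝ) := by
      push_cast
      exact Nat.lt_floor_add_one _
    have h2 : c * x₁ ^ m = C' * b ^ m * ε * x₂ ^ m := by
      rw [hC', hb, div_pow]
      field_simp
    rw [h2]
    gcongr
  · set K : ℕ := ⌊C' * b ^ m⌋₊ + 1 with hK
    set Cst : ℕ := ⌈((m : ℝ) + 1) / ε⌉₊ with hCst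
    have hK1 : (K : ℝ) ≤ (C' + 1) * b ^ m := by
      have : (⌊C' * b ^ m⌋₊ : ℝ) ≤ C' * b ^ m := Nat.floor_le (by positivity)
      rw [hK]
      push_cast
      nlinarith
    have hC1 : ((m : ℝ) + 1) / ε ≤ Cst := Nat.le_ceil _
    have hC2 : (Cst : ℝ) ≤ ((m : ℝ) + 1) / ε + 1 := (Nat.ceil_lt_add_one hq.le).le
    have hC0 : (0 : ℝ) < Cst := lt_of_lt_of_le hq hC1
    have hC3 : ((m : ℝ) + 1) / Cst ≤ ε := by
      rw [div_le_iff₀ hC0]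
      rw [div_le_iff₀ hε] at hC1
      linarith
    have hω : ((Cst + 1 + 2 * (7 * K + 1) : ℕ) : ℝ) ≤
        (1 / ε + 4 + 14 * (C' + 1)) * ((m + 1) * b ^ m) := by
      push_cast
      have hmb : (1 : ℝ) ≤ (m + 1) * b ^ m := one_le_mul_of_one_le_of_one_le hm1 hbm
      have e1 : ((m : ℝ) + 1) / ε ≤ 1 / ε * ((m + 1) * b ^ m) := by
        rw [div_eq_mul_one_div, mul_comm]
        gcongr
        exact le_mul_of_one_le_right (by positivity) hbm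
      have e2 : (C' + 1) * b ^ m ≤ (C' + 1) * ((m + 1) * b ^ m) := by
        gcongr
        exact le_mul_of_one_le_left (by positivity) hm1
      nlinarith
    have hx : (x₂ + 2 * ε + (m + 1) / Cst) ^ (m + 1) ≤ y ^ m := by
      calc (x₂ + 2 * ε + (m + 1) / Cst) ^ (m + 1) ≤ y ^ (m + 1) := by
            gcongr
            rw [hydef]
            linarith
        _ ≤ y ^ m := pow_le_pow_of_le_one hy0 hy (Nat.le_succ m)
    calc (K : ℝ) * ((Cst + 1 + 2 * (7 * K + 1) : ℕ) : ℝ) * (x₂ + 2 * ε + (m + 1) / Cst) ^ (m + 1)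
        ≤ ((C' + 1) * b ^ m) * ((1 / ε + 4 + 14 * (C' + 1)) * ((m + 1) * b ^ m)) * y ^ m := by
          gcongr
      _ = (C' + 1) * (1 / ε + 4 + 14 * (C' + 1)) * ((m + 1) * (b ^ 2 * y) ^ m) := by
          rw [mul_pow, ← pow_mul, two_mul, pow_add]
          ring
      _ < 1 := hm

/-- Choice of the real parameters. -/
theorem params (ν : ℝ) (hν : 2 < ν) (C₀ : ℝ) (hC₀ : 0 ≤ C₀) :
    ∃ (g lamb ε x₁ x₂ x : ℝ) (m K Cst ω₀ : ℕ),
      lamb = ν * (g - 1) - 1 ∧ 1 ≤ g ∧ 1 ≤ lamb ∧ 0 ≤ lamb - g + 1 ∧ 0 < ε ∧ 0 < x₁ ∧ 0 < x₂ ∧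
      x₂ + ε < x ∧ x ≤ 1 ∧ 0 < m ∧ 1 ≤ Cst ∧ Cst < ω₀ ∧ 2 * (7 * K + 1) ≤ ω₀ ∧
      2 + (g + C₀) + x₂ * (lamb - g + 1) + lamb * ε - lamb * x₁ < 0 ∧
      (2 + 2 * lamb * x₁) * (1 + 2 * lamb * x₁) * x₁ ^ m < K * ε * x₂ ^ m ∧
      (K : ℝ) * ω₀ * (x + (m + 1) / Cst) ^ (m + 1) < 1 := by
  have hν1 : 0 < ν - 1 := by linarith
  obtain ⟨u, hu1, hu2⟩ := exists_between (show 1 / (ν - 1) < 1 by
    rw [div_lt_one hν1]; linarith)
  have hu0 : 0 < u := lt_trans (by positivity) hu1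
  have hu3 : 1 < (ν - 1) * u := by
    rw [div_lt_iff₀ hν1] at hu1
    linarith
  set s0 : ℝ := (1 - u) * ((ν - 1) * u - 1) with hs0
  have hs0pos : 0 < s0 := mul_pos (by linarith) (by linarith)
  set ε : ℝ := min (s0 / (8 * ν)) (u * (1 - u) / 6) with hεdef
  have hε : 0 < ε := lt_min (by positivity) (by
    have := mul_pos hu0 (sub_pos.2 hu2)
    positivity)
  have hε1 : ε ≤ s0 / (8 * ν) := min_le_left _ _
  have hε2 : ε ≤ u * (1 - u) / 6 := min_le_right _ _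
  have hε3 : ε * (8 * ν) ≤ s0 := (le_div_iff₀ (by positivity)).1 hε1
  -- the slope in `g`
  set s : ℝ := ν * u - 1 - (ν - 1) * (u ^ 2 + 3 * ε) - ν * ε with hs
  have hspos : 0 < s := by
    have : s = s0 - (4 * ν - 3) * ε := by rw [hs, hs0]; ring
    nlinarith
  set c0 : ℝ := 2 + C₀ - (u ^ 2 + 3 * ε) * ν - (ν + 1) * (ε - u) with hc0
  set g : ℝ := max 2 (c0 / s + 1) with hg
  have hg2 : 2 ≤ g := le_max_left _ _
  have hg3 : c0 < g * s := by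
    have : c0 / s < g := lt_of_lt_of_le (lt_add_one _) (le_max_right _ _)
    rwa [div_lt_iff₀ hspos] at this
  have hl : 1 ≤ ν * (g - 1) - 1 := by nlinarith
  obtain ⟨m, K, Cst, ω₀, h1, h2, h3, h4, h5, h6⟩ := params_disc
    (c := (2 + 2 * (ν * (g - 1) - 1) * u) * (1 + 2 * (ν * (g - 1) - 1) * u)) (ε := ε) (x₁ := u)
    (x₂ := u ^ 2 + 3 * ε) (by positivity) hε (by positivity) (by nlinarith) (by nlinarith)
    (by nlinarith)
  refine ⟨g, ν * (g - 1) - 1, ε, u, u ^ 2 + 3 * ε, u ^ 2 + 3 * ε + 2 * ε, m, K, Cst, ω₀, rfl,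
    by linarith, hl, by nlinarith, hε, hu0, by positivity, by linarith, by nlinarith, h1, h2, h3,
    h4, ?_, h5, h6⟩
  have : 2 + (g + C₀) + (u ^ 2 + 3 * ε) * (ν * (g - 1) - 1 - g + 1) + (ν * (g - 1) - 1) * ε -
      (ν * (g - 1) - 1) * u = c0 - g * s := by
    rw [hc0, hs]
    ring
  rw [this]
  linarith

end Crest.Agent.R11
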