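import Crest.Agent.R11.Zero
import Crest.Agent.R11.Core
import Crest.Agent.R11.Asym
import Crest.Agent.R11.Params

set_option autoImplicit false

namespace Crest.Agent.R11
open MvPolynomial

theorem main (ν : ℝ) (hν : 2 < ν) :
    ∃ Q : ℕ, ∀ (p : ℤ) (q : ℕ), Q ≤ q → 1 / (q : ℝ) ^ ν ≤ |Real.pi - (p : ℝ) / (q : ℝ)| := by
  by_contra hcon
  push Not at hcon
  have hC₀ : (0 : ℝ) ≤ Real.log 4 + 4 := by positivity
  obtain ⟨g, lamb, ε, x₁, x₂, x, m, K, Cst, ω₀, hlamb, hg, hl, he₂, hε, hx₁, hx₂, hx, hx1, hm, hC,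
    hC0, hA0, hA1, hA2, hK⟩ := params ν hν _ hC₀
  obtain ⟨p, q, w, hpq, hw⟩ := select ν hcon g hg (Cst ^ (m + 1) + 8 * K + 4) (Cst ^ (m + 1))
  set ω : Fin (m + 1) → ℕ := Fin.cons ω₀ (fun i : Fin m => w i) with hωdef
  have hω0 : ω 0 = ω₀ := rfl
  have hωs : ∀ i : Fin m, ω i.succ = w i := fun _ => rfl
  have hwpos : ∀ i, 0 < w i := fun i => lt_of_le_of_lt (Nat.zero_le _) (hpq i).1
  have hω : ∀ i, 0 < ω i := by
    intro i
    refine Fin.cases ?_ (fun j => ?_) i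
    · rw [hω0]; omega
    · rw [hωs]; exact hwpos _
  have hqR : ∀ i, (1 : ℝ) ≤ q i := fun i =>
    le_trans (Real.one_le_exp (mul_nonneg (by linarith) (Nat.cast_nonneg _))) (hpq i).2.1
  have hq : ∀ i, 0 < q i := fun i => by have := hqR i; exact_mod_cast (by linarith : (0 : ℝ) < q i)
  have hp : ∀ i, p i ≠ 0 := by
    intro i h0
    have h1 := (hpq i).2.2.2
    rw [h0] at h1
    have h2 : (1 : ℝ) / (q i : ℝ) ^ ν ≤ 1 := by
      rw [div_le_one (Real.rpow_pos_of_pos (by linarith [hqR i]) _)]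
      exact Real.one_le_rpow (hqR i) (by linarith)
    have h3 := Real.pi_gt_three
    simp only [Int.cast_zero, zero_div, sub_zero] at h1
    rw [abs_of_pos Real.pi_pos] at h1
    linarith
  have hhier : ∀ l i : Fin (m + 1), l < i → Cst ^ (m + 1) * vw ω l < vw ω i := by
    intro l i hli
    obtain ⟨j, rfl⟩ := Fin.exists_succ_eq.2 (Fin.pos_iff_ne_zero.1 (lt_of_le_of_lt (Fin.zero_le l) hli))
    revert hli
    refine Fin.cases (fun _ => ?_) (fun l hli => ?_) l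
    · have := (hpq j).1
      simp only [vw_zero, vw_succ, hωs]; omega
    · simp only [vw_succ, hωs]
      exact hw l j (by simpa using hli)
  set c : Fin K → Fin m → Polynomial ℂ := fun k i => cpoly k (p i) (q i) (ω i.succ) with hc
  have hQne : ∀ i : Fin m, ((QQ (q i) (ω i.succ) : ℕ) : ℂ) ≠ 0 := fun i =>
    Nat.cast_ne_zero.2 (Nat.mul_pos (hq i) (Nat.lcmUpto_pos _)).ne'
  have hinj : ∀ i, Function.Injective (fun k => (c k i).coeff 0) := by
    intro i k k' h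
    simp only [hc, cpoly_coeff_zero] at h
    have hne : (2 * Complex.I * (p i : ℂ) * (Nat.lcmUpto (ω i.succ) : ℂ)) ≠ 0 := by
      refine mul_ne_zero (mul_ne_zero (mul_ne_zero two_ne_zero Complex.I_ne_zero) ?_) ?_
      · exact_mod_cast hp i
      · exact_mod_cast Nat.lcmUpto_ne_zero _
    have := mul_right_cancel₀ hne h
    exact Fin.ext (by exact_mod_cast this)
  obtain ⟨N₁, hN₁⟩ := zero_estimate hm (fun i => ((QQ (q i) (ω i.succ) : ℕ) : ℂ)) hQne ω hω c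
    (fun k i => cpoly_dvd _ _ _ _) hinj Cst hC (by rw [hω0]; exact hC0) hhier x
    (by linarith) hx1 (by rw [hω0]; exact hK) (x₂ + ε) hx
  obtain ⟨N₂, hN₂⟩ := asym (K := K) (fun i : Fin m => ω i.succ) (fun i => hω _) lamb
    (g + (Real.log 4 + 4)) (lamb - g + 1) ε x₁ x₂ hl hε hx₁ hx₂ he₂ hA1 hA2
  obtain ⟨s₁, s₂, s₃, T₀, H, hs, hS⟩ := hN₂ (max N₁ N₂) (le_max_right _ _)
  have hQ1 : ∀ i : Fin m, (QQ (q i) (ω i.succ) : ℝ) ≤ Real.exp ((g + (Real.log 4 + 4)) * ω i.succ) := by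
    intro i
    rw [QQ, Nat.cast_mul, add_mul, Real.exp_add, hωs]
    exact mul_le_mul (hpq i).2.2.1 (lcm_bound _) (Nat.cast_nonneg _) (Real.exp_pos _).le
  have hQ2 : ∀ i : Fin m, Real.exp ((lamb - (lamb - g + 1)) * ω i.succ) ≤ QQ (q i) (ω i.succ) := by
    intro i
    rw [QQ, Nat.cast_mul, hωs, show lamb - (lamb - g + 1) = g - 1 by ring]
    refine le_trans (hpq i).2.1 (le_mul_of_one_le_right (Nat.cast_nonneg _) ?_)
    exact_mod_cast Nat.lcmUpto_pos _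
  have happ : ∀ i : Fin m, 2 * |Real.pi - (p i : ℝ) / (q i : ℝ)| ≤ Real.exp (-lamb * ω i.succ) := by
    intro i
    rw [hωs]
    have h1 := (hpq i).2.2.2
    have h2 : Real.exp (ν * ((g - 1) * w i)) ≤ (q i : ℝ) ^ ν := by
      rw [mul_comm ν, Real.exp_mul]
      exact Real.rpow_le_rpow (Real.exp_pos _).le (hpq i).2.1 (by linarith)
    have h3 : (1 : ℝ) / (q i : ℝ) ^ ν ≤ Real.exp (-(ν * ((g - 1) * w i))) := by
      rw [Real.exp_neg, one_div]
      exact inv_anti₀ (Real.exp_pos _) h2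
    have h4 : (2 : ℝ) ≤ Real.exp (w i) := by
      have h5 : (1 : ℝ) ≤ w i := by exact_mod_cast hwpos i
      linarith [Real.add_one_le_exp (w i : ℝ)]
    have h6 : Real.exp (-lamb * w i) = Real.exp (w i) * Real.exp (-(ν * ((g - 1) * w i))) := by
      rw [← Real.exp_add, hlamb]; ring_nf
    rw [h6]
    exact mul_le_mul h4 (h1.le.trans h3) (abs_nonneg _) (Real.exp_pos _).le
  have hA1' : ∀ i : Fin m, 8 * K + 4 ≤ ω i.succ := by
    intro i
    have := (hpq i).1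
    rw [hωs]; omega
  obtain ⟨S, γ, hSw, ⟨b₀, hb₀, hγ⟩, hrel⟩ := core (K := K) ω hω (fun i => p i) (fun i => q i) lamb
    (g + (Real.log 4 + 4)) (lamb - g + 1) hl (by linarith) he₂ (fun i => hq i)
    hQ1 hQ2 happ hA1' (by rw [hω0]; exact hA0)
    (max N₁ N₂) s₁ s₂ s₃ T₀ H hS
  obtain ⟨f, hf, hdual⟩ := hN₁ (max N₁ N₂) (le_max_left _ _) (s₁ + s₂) hs b₀.1 b₀.2
  have h1 := hrel f hf
  rw [Finset.sum_eq_single b₀] at h1
  · rw [hdual b₀.1 b₀.2 (hSw _ hb₀)] at h1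
    simp at h1
    exact hγ h1
  · intro b hb hne
    rw [hdual b.1 b.2 (hSw _ hb), if_neg, mul_zero]
    rintro ⟨h1, h2⟩
    exact hne (Prod.ext h1 h2)
  · intro h; exact absurd hb₀ h

end Crest.Agent.R11
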