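import Crest.Agent.R11.Basic

set_option autoImplicit false

namespace Crest.Agent.R11
open MvPolynomial

namespace MinG

theorem mem_supported_iff {σ : Type*} {S : Set σ} {g : MvPolynomial σ ℂ} :
    g ∈ supported ℂ S ↔ ∀ d, coeff d g ≠ 0 → ∀ i, d i ≠ 0 → i ∈ S := by
  rw [mem_supported]
  constructor
  · intro h d hd i hi
    exact h (Finset.mem_coe.2 ((mem_vars_iff_mem_support i).2
      ⟨d, mem_support_iff.2 hd, Finsupp.mem_support_iff.2 hi⟩))
  · intro h i hi
    obtain ⟨d, hd, hi⟩ := (mem_vars_iff_mem_support i).1 (Finset.mem_coe.1 hi)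
    exact h d (mem_support_iff.1 hd) i (Finsupp.mem_support_iff.1 hi)

theorem sub_add_single {σ : Type*} {d : σ →₀ ℕ} {l : σ} (h : d l ≠ 0) :
    d - Finsupp.single l 1 + Finsupp.single l 1 = d :=
  tsub_add_cancel_of_le (by simpa [Finsupp.single_le_iff, Nat.one_le_iff_ne_zero] using h)

theorem pderiv_eq_zero_iff {σ : Type*} {g : MvPolynomial σ ℂ} {l : σ} :
    pderiv l g = 0 ↔ ∀ d, coeff d g ≠ 0 → d l = 0 := by
  constructor
  · intro h d hd
    by_contra hl
    have := congrArg (coeff (d - Finsupp.single l 1)) h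
    rw [coeff_pderiv, sub_add_single hl, coeff_zero] at this
    exact mul_ne_zero hd (Nat.cast_add_one_ne_zero _) this
  · intro h
    ext d
    rw [coeff_pderiv, coeff_zero]
    by_contra hne
    have := h _ (left_ne_zero_of_mul hne)
    simp at this

theorem coeff_X_mul_pderiv {σ : Type*} (g : MvPolynomial σ ℂ) (l : σ) (d : σ →₀ ℕ) :
    coeff d (X l * pderiv l g) = d l * coeff d g := by
  classical
  rw [coeff_X_mul']
  split_ifs with h
  · have h' := Finsupp.mem_support_iff.1 h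
    rw [coeff_pderiv, sub_add_single h', mul_comm]
    congr 1
    have : (d - Finsupp.single l 1 : σ →₀ ℕ) l + 1 = d l := by
      simp only [Finsupp.coe_tsub, Pi.sub_apply, Finsupp.single_eq_same]
      omega
    exact_mod_cast this
  · rw [Finsupp.notMem_support_iff.1 h]; simp

theorem coeff_delta {m : ℕ} (Q : Fin m → ℂ) (g : MvPolynomial (Fin (m + 1)) ℂ)
    (d : Fin (m + 1) →₀ ℕ) : coeff d (delta Q g) =
      d 0 * coeff d g + ∑ i : Fin m, Q i * coeff d (pderiv i.succ g) := by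
  rw [delta_apply, coeff_add, coeff_X_mul_pderiv, coeff_sum]
  simp only [coeff_C_mul]

end MinG

open MinG

/-- Greedy choice of a transcendence basis among the variables modulo `q`. -/
theorem greedy {n : ℕ} (q : Ideal (MvPolynomial (Fin n) ℂ)) (hq : q ≠ ⊤) :
    ∃ J : Finset (Fin n), (∀ f ∈ supported ℂ (J : Set (Fin n)), f ∈ q → f = 0) ∧
      ∀ i, i ∉ J → ∃ g, g ≠ 0 ∧ g ∈ q ∧ g ∈ supported ℂ (insert i {j | j ∈ J ∧ j < i}) := by
  have key : ∀ k : ℕ, ∃ J : Finset (Fin n), (∀ j ∈ J, j.val < k) ∧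
      (∀ f ∈ supported ℂ (J : Set (Fin n)), f ∈ q → f = 0) ∧
      ∀ i : Fin n, i.val < k → i ∉ J →
        ∃ g, g ≠ 0 ∧ g ∈ q ∧ g ∈ supported ℂ (insert i {j | j ∈ J ∧ j < i}) := by
    intro k
    induction k with
    | zero =>
      refine ⟨∅, by simp, fun f hf hfq => ?_, fun i hi => absurd hi (Nat.not_lt_zero _)⟩
      rw [Finset.coe_empty, supported_empty, Algebra.mem_bot] at hf
      obtain ⟨c, rfl⟩ := hf
      by_contra hc
      have hc' : c ≠ 0 := by rintro rfl; exact hc (map_zero _)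
      exact hq (q.eq_top_of_isUnit_mem hfq ((IsUnit.mk0 c hc').map _))
    | succ k ih =>
      obtain ⟨J, h1, h2, h3⟩ := ih
      by_cases hk : k < n
      · obtain ⟨J', hJ'⟩ : ∃ J' : Finset (Fin n), ∀ j, j ∈ J' ↔ j = ⟨k, hk⟩ ∨ j ∈ J :=
          ⟨insert ⟨k, hk⟩ J, fun j => Finset.mem_insert⟩
        rcases Classical.em (∀ f ∈ supported ℂ (J' : Set (Fin n)), f ∈ q → f = 0) with hI | hI
        · refine ⟨J', fun j hj => ?_, hI, fun i hi hiJ => ?_⟩
          · rcases (hJ' j).1 hj with rfl | hj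
            · exact Nat.lt_succ_self k
            · exact (h1 j hj).trans (Nat.lt_succ_self k)
          · rw [hJ', not_or] at hiJ
            have hik : i.val < k := by
              have : i.val ≠ k := fun h => hiJ.1 (Fin.ext h)
              omega
            obtain ⟨g, g0, gq, gs⟩ := h3 i hik hiJ.2
            refine ⟨g, g0, gq, supported_mono (Set.insert_subset_insert fun j hj => ?_) gs⟩
            exact ⟨(hJ' j).2 (Or.inr hj.1), hj.2⟩
        · refine ⟨J, fun j hj => (h1 j hj).trans (Nat.lt_succ_self k), h2, fun i hi hiJ => ?_⟩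
          by_cases hik : i.val < k
          · exact h3 i hik hiJ
          · have hi' : i = ⟨k, hk⟩ := Fin.ext (by simp only; omega)
            subst hi'
            push Not at hI
            obtain ⟨g, gs, gq, g0⟩ := hI
            refine ⟨g, g0, gq, supported_mono (fun j hj => ?_) gs⟩
            exact ((hJ' j).1 hj).imp id fun hj => ⟨hj, h1 j hj⟩
      · exact ⟨J, fun j hj => (h1 j hj).trans (Nat.lt_succ_self k), h2,
          fun i _ hiJ => h3 i (by have := i.2; omega) hiJ⟩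
  obtain ⟨J, -, h2, h3⟩ := key n
  exact ⟨J, h2, fun i hi => h3 i i.2 hi⟩

/-- A nonzero element of `q ∩ ℂ[x_S]` with minimal leading monomial. -/
theorem minG {m : ℕ} (Q : Fin m → ℂ) (q : Ideal (MvPolynomial (Fin (m + 1)) ℂ))
    (S : Set (Fin (m + 1))) (hne : ∃ g, g ≠ 0 ∧ g ∈ q ∧ g ∈ supported ℂ S) :
    ∃ g, g ≠ 0 ∧ g ∈ q ∧ g ∈ supported ℂ S ∧ (∀ l, pderiv l g ∈ q → pderiv l g = 0) ∧
      (delta Q g ∈ q → ∃ c : ℂ, delta Q g = C c * g) := by
  let mo : MonomialOrder (Fin (m + 1)) := MonomialOrder.lex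
  obtain ⟨g, ⟨g0, gq, gs⟩, hmin⟩ :=
    (InvImage.wf (fun g : MvPolynomial (Fin (m + 1)) ℂ => mo.toSyn (mo.degree g))
      (wellFounded_lt (α := mo.syn))).has_min {g | g ≠ 0 ∧ g ∈ q ∧ g ∈ supported ℂ S} hne
  -- an element all of whose monomials are smaller vanishes
  have hsmall : ∀ h ∈ q, (∀ d, coeff d h ≠ 0 → (coeff d g ≠ 0 ∧ d ≠ mo.degree g) ∨
      ∃ l, coeff (d + Finsupp.single l 1) g ≠ 0) → h = 0 := by
    intro h hq hd
    by_contra h0
    refine hmin h ⟨h0, hq, mem_supported_iff.2 fun d hd' i hi => ?_⟩ ?_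
    · rcases hd d hd' with h1 | ⟨l, h1⟩
      · exact mem_supported_iff.1 gs d h1.1 i hi
      · refine mem_supported_iff.1 gs _ h1 i ?_
        rw [Finsupp.add_apply]; omega
    · change mo.toSyn (mo.degree h) < mo.toSyn (mo.degree g)
      rcases hd _ (mo.coeff_degree_ne_zero_iff.2 h0) with h1 | ⟨l, h1⟩
      · exact lt_of_le_of_ne (mo.le_degree (mem_support_iff.2 h1.1))
          fun e => h1.2 (mo.toSyn.injective e)
      · refine lt_of_lt_of_le (mo.toSyn_strictMono ?_) (mo.le_degree (mem_support_iff.2 h1))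
        exact lt_add_of_pos_right _ (pos_iff_ne_zero.2 (Finsupp.single_ne_zero.2 one_ne_zero))
  refine ⟨g, g0, gq, gs, fun l hl => hsmall _ hl fun d hd => Or.inr ⟨l, ?_⟩, fun hδ =>
    ⟨(mo.degree g 0 : ℂ), sub_eq_zero.1 (hsmall _ (q.sub_mem hδ (q.mul_mem_left _ gq))
      fun d hd => ?_)⟩⟩
  · rw [coeff_pderiv] at hd
    exact left_ne_zero_of_mul hd
  · rw [coeff_sub, coeff_delta, coeff_C_mul] at hd
    by_contra hcon
    rw [not_or, not_and_or, not_exists] at hcon
    apply hd
    have hs : ∑ i : Fin m, Q i * coeff d (pderiv i.succ g) = 0 :=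
      Finset.sum_eq_zero fun i _ => by
        rw [coeff_pderiv, not_not.1 (hcon.2 i.succ), zero_mul, mul_zero]
    rw [hs, add_zero]
    rcases hcon.1 with h1 | h1
    · rw [not_not.1 h1]; simp
    · rw [← not_not.1 h1, sub_self]

/-- An eigenvector of `δ` in `ℂ[y, x_i]` does not involve `x_i`. -/
theorem eigen {m : ℕ} (Q : Fin m → ℂ) (i : Fin m) (hQ : Q i ≠ 0)
    (g : MvPolynomial (Fin (m + 1)) ℂ) (c : ℂ) (hδ : delta Q g = C c * g)
    (hl : ∀ l : Fin m, l ≠ i → pderiv l.succ g = 0) : pderiv i.succ g = 0 := by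
  have heq : ∀ d : Fin (m + 1) →₀ ℕ, (c - d 0) * coeff d g =
      Q i * (coeff (d + Finsupp.single i.succ 1) g * (d i.succ + 1)) := by
    intro d
    have := congrArg (coeff d) hδ
    rw [coeff_delta, coeff_C_mul, Finset.sum_eq_single i
      (fun l _ hli => by rw [hl l hli, coeff_zero, mul_zero]) (by simp), coeff_pderiv] at this
    linear_combination -this
  rw [pderiv_eq_zero_iff]
  intro d hd
  by_contra hdi
  have h0 : ∀ k : ℕ, Finsupp.single i.succ k (0 : Fin (m + 1)) = 0 := fun k =>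
    Finsupp.single_eq_of_ne (Fin.succ_ne_zero i).symm
  have hc : c - d 0 ≠ 0 := by
    have h1 := heq (d - Finsupp.single i.succ 1)
    rw [sub_add_single hdi] at h1
    have h2 : (d - Finsupp.single i.succ 1 : Fin (m + 1) →₀ ℕ) 0 = d 0 := by
      simp only [Finsupp.coe_tsub, Pi.sub_apply, h0, Nat.sub_zero]
    rw [h2] at h1
    exact left_ne_zero_of_mul
      (h1 ▸ mul_ne_zero hQ (mul_ne_zero hd (Nat.cast_add_one_ne_zero _)))
  have hk : ∀ k : ℕ, coeff (d + Finsupp.single i.succ k) g ≠ 0 := by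
    intro k
    induction k with
    | zero => simpa using hd
    | succ k ih =>
      have h1 := heq (d + Finsupp.single i.succ k)
      rw [Finsupp.add_apply, h0, add_zero, add_assoc, ← Finsupp.single_add] at h1
      exact left_ne_zero_of_mul (right_ne_zero_of_mul (h1 ▸ mul_ne_zero hc ih))
  have := monomial_le_degreeOf i.succ (mem_support_iff.2 (hk (degreeOf i.succ g + 1)))
  rw [Finsupp.add_apply, Finsupp.single_eq_same] at this
  omega

theorem pderiv_eq_zero_of_supported {σ : Type*} {S : Set σ} {g : MvPolynomial σ ℂ}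
    (hg : g ∈ supported ℂ S) {l : σ} (hl : l ∉ S) : pderiv l g = 0 :=
  pderiv_eq_zero_iff.2 fun d hd => by_contra fun h => hl (mem_supported_iff.1 hg d hd l h)

theorem supported_diff_of_pderiv_eq_zero {σ : Type*} {S : Set σ} {g : MvPolynomial σ ℂ}
    (hg : g ∈ supported ℂ S) {l : σ} (hl : pderiv l g = 0) : g ∈ supported ℂ (S \ {l}) :=
  mem_supported_iff.2 fun d hd i hi => ⟨mem_supported_iff.1 hg d hd i hi, fun h => by
    rw [Set.mem_singleton_iff.1 h] at hi
    exact hi (pderiv_eq_zero_iff.1 hl d hd)⟩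

/-- A prime ideal inside the maximal ideal of `ξ` that contains a nonzero polynomial in the single
variable `X i` contains `X i - ξ i`. -/
theorem univariate {σ : Type*} (q : Ideal (MvPolynomial σ ℂ)) (hqp : q.IsPrime) (ξ : σ → ℂ)
    (hξ : ∀ f ∈ q, eval ξ f = 0) (i : σ) (g : MvPolynomial σ ℂ) (hg0 : g ≠ 0) (hgq : g ∈ q)
    (hg : ∀ l, l ≠ i → pderiv l g = 0) : X i - C (ξ i) ∈ q := by
  have hs : g ∈ supported ℂ {i} := mem_supported_iff.2 fun d hd l hl =>
    by_contra fun h => hl (pderiv_eq_zero_iff.1 (hg l h) d hd)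
  rw [supported_eq_adjoin_X, Set.image_singleton, Algebra.adjoin_singleton_eq_range_aeval] at hs
  obtain ⟨p, rfl⟩ := hs
  have hp : p ≠ 0 := by rintro rfl; exact hg0 (map_zero _)
  have hgq' : Polynomial.aeval (X i : MvPolynomial σ ℂ) p ∈ q := hgq
  rw [(IsAlgClosed.splits p).eq_prod_roots, map_mul, map_multiset_prod, Polynomial.aeval_C] at hgq'
  rcases hqp.mem_or_mem hgq' with h | h
  · have := hξ _ h
    rw [algebraMap_eq, eval_C] at this
    exact absurd this (Polynomial.leadingCoeff_ne_zero.2 hp)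
  · obtain ⟨r, hr, hrq⟩ := (hqp.multiset_prod_mem_iff_exists_mem _).1 h
    obtain ⟨r', hr', rfl⟩ := Multiset.mem_map.1 hr
    obtain ⟨a, -, rfl⟩ := Multiset.mem_map.1 hr'
    rw [map_sub, Polynomial.aeval_X, Polynomial.aeval_C, algebraMap_eq] at hrq
    have := hξ _ hrq
    rw [map_sub, eval_X, eval_C, sub_eq_zero] at this
    rwa [this]

end Crest.Agent.R11
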