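import Crest.Agent.R11.Bezout
import Crest.Agent.R11.Chain
import Crest.Agent.R11.MinG

set_option autoImplicit false

namespace Crest.Agent.R11
open MvPolynomial

/-- The product lemma. -/
theorem product {m : ℕ} (Q : Fin m → ℂ) (hQ : ∀ i, Q i ≠ 0) (ω : Fin (m + 1) → ℕ)
    (hω : ∀ i, 0 < ω i) (Cst η : ℕ) (hC : 1 ≤ Cst) (hη : 0 < η) (hC0 : Cst < ω 0)
    (hhier : ∀ l i : Fin (m + 1), l < i → Cst ^ (m + 1) * vw ω l < vw ω i)
    (P : MvPolynomial (Fin (m + 1)) ℂ) (hP0 : P ≠ 0) (hP : P ∈ Deg ω (Cst * η))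
    (ξ : Fin (m + 1) → ℂ) (hξ0 : ξ 0 = 1) (p : Ideal (MvPolynomial (Fin (m + 1)) ℂ))
    (hp : p.IsPrime) (hpξ : ∀ f ∈ p, eval ξ f = 0)
    (hwords : ∀ β, wt (vw ω) β ≤ (m + 1) * η → wordD (DD Q) β P ∈ p) :
    X 0 - 1 ∈ p ∧ ∃ i : Fin m, X i.succ - C (ξ i.succ) ∈ p := by
  classical
  let G : ℕ → Set (MvPolynomial (Fin (m + 1)) ℂ) :=
    fun j => {f | ∃ β, wt (vw ω) β ≤ j * η ∧ f = wordD (DD Q) β P}
  have hmono : Monotone (fun j => Ideal.span (G j)) := by
    intro a b hab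
    refine Ideal.span_mono ?_
    rintro f ⟨β, hβ, rfl⟩
    exact ⟨β, hβ.trans (Nat.mul_le_mul_right _ hab), rfl⟩
  have hPG : ∀ j, P ∈ Ideal.span (G j) := fun j => Ideal.subset_span ⟨[], by simp, rfl⟩
  have h0 : Ideal.span (G 0) ≠ ⊥ := fun h => hP0 (by simpa [h] using hPG 0)
  have hap : Ideal.span (G (m + 1)) ≤ p := by
    rw [Ideal.span_le]
    rintro f ⟨β, hβ, rfl⟩
    exact hwords β hβ
  obtain ⟨j, -, q, hqmin, hq1, hqp⟩ := chain (fun j => Ideal.span (G j)) hmono h0 p hp hap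
  have hqprime : q.IsPrime := hqmin.1.1
  have hqξ : ∀ f ∈ q, eval ξ f = 0 := fun f hf => hpξ f (hqp hf)
  have hG : ∀ g ∈ G j, g ∈ Deg ω (Cst * η) ∧ g ∈ FQ (DD Q) (vw ω) q η := by
    rintro f ⟨β, hβ, rfl⟩
    refine ⟨wordD_mem_Deg Q β hP, fun γ hγ => ?_⟩
    rw [← wordD_append]
    refine hq1 (Ideal.subset_span ⟨γ ++ β, ?_, rfl⟩)
    rw [wt_append, add_mul, one_mul]; omega
  have hPq : P ∈ q := hq1 (hPG _)
  obtain ⟨J, hJ, hgr⟩ := greedy q hqprime.ne_top
  choose g hg0 hgq hgs hgd hgδ using fun i (hi : i ∉ J) => minG Q q _ (hgr i hi)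
  have hoff : ∀ i (hi : i ∉ J) l, l ≠ i → ¬ (l ∈ J ∧ l < i) → pderiv l (g i hi) = 0 := by
    intro i hi l h1 h2
    refine pderiv_eq_zero_of_supported (hgs i hi) ?_
    rintro (h | h)
    · exact h1 h
    · exact h2 h
  have hdiag : ∀ i (hi : i ∉ J), pderiv i (g i hi) ∉ q := by
    intro i hi h
    have h1 := supported_diff_of_pderiv_eq_zero (hgs i hi) (hgd i hi i h)
    refine hg0 i hi (hJ _ (supported_mono ?_ h1) (hgq i hi))
    rintro l ⟨h2 | h2, h3⟩
    · exact absurd h2 h3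
    · exact h2.1
  have halg : ∀ i, i ∉ J → ∃ g, g ≠ 0 ∧ g ∈ q ∧
      g ∈ supported ℂ (insert i (J : Set (Fin (m + 1)))) := by
    intro i hi
    refine ⟨g i hi, hg0 i hi, hgq i hi, supported_mono ?_ (hgs i hi)⟩
    exact Set.insert_subset_insert fun l hl => hl.1
  have key : ∀ (g' : {i // i ∉ J} → MvPolynomial (Fin (m + 1)) ℂ)
      (σ : {i // i ∉ J} → Fin (m + 1)) (r : {i // i ∉ J} → ℕ), (∀ i, g' i ∈ q) →
      (∀ i' i'', i' ≠ i'' → r i'' ≤ r i' → DD Q (σ i') (g' i'') ∈ q) →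
      (∀ i, DD Q (σ i) (g' i) ∉ q) →
      ∏ i : {i // i ∉ J}, ω i ≤
        Cst ^ Fintype.card {i // i ∉ J} * ∏ i : {i // i ∉ J}, vw ω (σ i) := by
    intro g' σ r h1 h2 h3
    obtain ⟨h, s, hs, hh, hD⟩ := exists_dual q hqprime (fun i => DD Q (σ i)) g' h1 r h2 h3
    have := bezout (DD Q) (vw ω) ω (vw_pos hω) hω q hqprime J hJ halg (G j) (Cst * η) η
      (Nat.mul_pos hC hη) hη hG hqmin h hh σ s hs hD
    rw [mul_pow, mul_comm (Cst ^ _), mul_assoc] at this
    exact Nat.le_of_mul_le_mul_left this (pow_pos hη _)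
  have hy : (0 : Fin (m + 1)) ∉ J → X 0 - 1 ∈ q := by
    intro h0J
    have := univariate q hqprime ξ hqξ 0 (g 0 h0J) (hg0 _ _) (hgq _ _)
      (fun l hl => hoff 0 h0J l hl (fun h => absurd h.2 (Fin.not_lt_zero l)))
    simpa [hξ0] using this
  have hX0 : (X 0 : MvPolynomial (Fin (m + 1)) ℂ) ∉ q := fun h => by
    have := hqξ _ h
    simp [hξ0] at this
  have hδy : delta Q (X 0 - 1 : MvPolynomial (Fin (m + 1)) ℂ) = X 0 := by simp
  have hpy : ∀ l : Fin (m + 1), l ≠ 0 → pderiv l (X 0 - 1 : MvPolynomial (Fin (m + 1)) ℂ) = 0 := by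
    intro l hl
    simp [pderiv_X, Pi.single_apply, hl.symm]
  have hvω : ∀ i, vw ω i ≤ ω i := by
    intro i
    refine Fin.cases ?_ (fun j => ?_) i
    · exact hω 0
    · exact le_rfl
  have hcard : Fintype.card {i // i ∉ J} ≤ m + 1 := by
    simpa using Fintype.card_subtype_le (fun i => i ∉ J)
  have H : ∀ i₀ (hi₀ : i₀ ∉ J), i₀ ≠ 0 → ∀ l, l ∈ J → l < i₀ → DD Q l (g i₀ hi₀) ∈ q := by
    intro i₀ hi₀ hne l hlJ hl
    by_contra hcon
    have := key (fun i => if i.1 = 0 then X 0 - 1 else g i.1 i.2)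
      (fun i => if i.1 = i₀ then l else i.1)
      (fun i => if i.1 = 0 then 0 else if i.1 = i₀ then 1 else 2) ?_ ?_ ?_
    · rw [← Finset.mul_prod_erase _ _ (Finset.mem_univ (⟨i₀, hi₀⟩ : {i // i ∉ J})),
        ← Finset.mul_prod_erase _ _ (Finset.mem_univ (⟨i₀, hi₀⟩ : {i // i ∉ J}))] at this
      simp only [if_true] at this
      have h1 : ∏ i ∈ Finset.univ.erase (⟨i₀, hi₀⟩ : {i // i ∉ J}),
          vw ω (if i.1 = i₀ then l else i.1) ≤
          ∏ i ∈ Finset.univ.erase (⟨i₀, hi₀⟩ : {i // i ∉ J}), ω i := by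
        refine Finset.prod_le_prod' fun i hi => ?_
        rw [if_neg (fun h => (Finset.mem_erase.1 hi).1 (Subtype.ext h))]
        exact hvω _
      have h2 : 0 < ∏ i ∈ Finset.univ.erase (⟨i₀, hi₀⟩ : {i // i ∉ J}), ω i :=
        Finset.prod_pos fun i _ => hω _
      have h3 := hhier l i₀ hl
      rw [vw_of_ne ω hne] at h3
      have h4 : Cst ^ Fintype.card {i // i ∉ J} ≤ Cst ^ (m + 1) := Nat.pow_le_pow_right hC hcard
      have h5 := this.trans (Nat.mul_le_mul h4 (Nat.mul_le_mul_left _ h1))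
      rw [← mul_assoc] at h5
      have h6 := Nat.le_of_mul_le_mul_right h5 h2
      omega
    · intro i
      split_ifs with h
      · exact hy (h ▸ i.2)
      · exact hgq _ _
    · intro i' i'' hne' hr
      have hne'' : i'.1 ≠ i''.1 := fun h => hne' (Subtype.ext h)
      by_cases h1 : i'.1 = 0
      · have h2 : i''.1 ≠ 0 := fun h => hne'' (h1.trans h.symm)
        simp only [h1, h2, if_true, if_false] at hr
        split_ifs at hr <;> omega
      by_cases h2 : i'.1 = i₀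
      · have h3 : i''.1 ≠ i₀ := fun h => hne'' (h2.trans h.symm)
        have h4 : i''.1 = 0 := by
          by_contra h4
          simp only [h2, h3, h4, hne, if_true, if_false] at hr
          omega
        have h5 : l ≠ 0 := fun h => (h4 ▸ i''.2) (h ▸ hlJ)
        simp only [h2, h4, if_true]
        rw [DD_of_ne Q h5, hpy l h5]
        exact q.zero_mem
      · simp only [h2, if_false]
        rw [DD_of_ne Q h1]
        split_ifs with h3
        · rw [hpy _ h1]; exact q.zero_mem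
        · rw [hoff _ _ _ hne'' (fun h => i'.2 h.1)]; exact q.zero_mem
    · intro i
      by_cases h1 : i.1 = 0
      · have h2 : i.1 ≠ i₀ := fun h => hne (h.symm.trans h1)
        simp only [h2, if_false]
        simp only [h1, if_true, DD_zero, hδy]
        exact hX0
      by_cases h2 : i.1 = i₀
      · obtain ⟨i, hi⟩ := i
        subst h2
        simp only [if_true, if_neg h1]
        exact hcon
      · simp only [h1, h2, if_false]
        rw [DD_of_ne Q h1]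
        exact hdiag _ _
  have H2 : ∀ i₀ (hi₀ : i₀ ∉ J), i₀ ≠ 0 → ∀ l, l ≠ 0 → l ≠ i₀ → pderiv l (g i₀ hi₀) = 0 := by
    intro i₀ hi₀ hne l hl0 hl
    by_cases h : l ∈ J ∧ l < i₀
    · have := H i₀ hi₀ hne l h.1 h.2
      rw [DD_of_ne Q hl0] at this
      exact hgd _ _ _ this
    · exact hoff _ _ _ hl h
  by_cases h0J : (0 : Fin (m + 1)) ∈ J
  · exfalso
    have hex : ∃ i₀, i₀ ∉ J := by
      by_contra hall
      push Not at hall
      refine hP0 (hJ P ?_ hPq)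
      have : (J : Set (Fin (m + 1))) = Set.univ := Set.eq_univ_of_forall hall
      rw [this, supported_univ]
      trivial
    obtain ⟨i₀, hi₀⟩ := hex
    have hne : i₀ ≠ 0 := fun h => hi₀ (h ▸ h0J)
    obtain ⟨c, hc⟩ := hgδ i₀ hi₀ (H i₀ hi₀ hne 0 h0J (Fin.pos_iff_ne_zero.2 hne))
    obtain ⟨i, rfl⟩ := Fin.exists_succ_eq.2 hne
    have := eigen Q i (hQ i) _ c hc (fun l hl => H2 _ hi₀ hne _ (Fin.succ_ne_zero l)
      (fun h => hl (Fin.succ_injective _ h)))
    exact hdiag _ hi₀ (this ▸ q.zero_mem)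
  · refine ⟨hqp (hy h0J), ?_⟩
    by_cases hex : ∃ i₀, i₀ ∉ J ∧ i₀ ≠ 0
    · obtain ⟨i₀, hi₀, hne⟩ := hex
      have := univariate q hqprime ξ hqξ i₀ (g i₀ hi₀) (hg0 _ _) (hgq _ _) (fun l hl => by
        by_cases hl0 : l = 0
        · exact hoff _ _ _ hl (fun h => h0J (hl0 ▸ h.1))
        · exact H2 _ _ hne _ hl0 hl)
      obtain ⟨i, rfl⟩ := Fin.exists_succ_eq.2 hne
      exact ⟨i, hqp this⟩
    · exfalso
      push Not at hex
      have huniq : ∀ i : {i // i ∉ J}, i = ⟨0, h0J⟩ := fun i => Subtype.ext (hex i.1 i.2)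
      letI : Unique {i // i ∉ J} := ⟨⟨⟨0, h0J⟩⟩, huniq⟩
      have := key (fun _ => X 0 - 1) (fun _ => 0) (fun _ => 0) (fun _ => hy h0J)
        (fun i' i'' h _ => absurd (Subsingleton.elim _ _) h)
        (fun _ => by rw [DD_zero, hδy]; exact hX0)
      rw [Fintype.card_unique, Fintype.prod_unique, Fintype.prod_unique] at this
      simp only [vw_zero, pow_one, mul_one] at this
      exact absurd hC0 (not_lt.2 this)

end Crest.Agent.R11
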