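import Crest.Agent.R11.Basic

set_option autoImplicit false

namespace Crest.Agent.R11
open MvPolynomial

theorem surj_smul_mem {R₀ A : Type*} [CommRing R₀] [CommRing A] [Algebra R₀ A] (I : Ideal A)
    (s : R₀) {a : A} (ha : a ∈ I) : s • a ∈ I := by
  rw [Algebra.smul_def]
  exact I.mul_mem_left _ ha

theorem surj_lt_sup {A : Type*} [CommRing A] {b : Ideal A} {f : A} (hf : f ∉ b) :
    b < b ⊔ Ideal.span {f} := by
  refine lt_of_le_of_ne le_sup_left fun h => hf ?_
  rw [h]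
  exact Ideal.mem_sup_right (Ideal.mem_span_singleton_self f)

theorem surj_mem_sup {A : Type*} [CommRing A] {b : Ideal A} {f u : A}
    (hu : u ∈ b ⊔ Ideal.span {f}) : ∃ u₀ ∈ b, ∃ c, u = u₀ + f * c := by
  obtain ⟨y, hy, z, hz, rfl⟩ := Submodule.mem_sup.1 hu
  obtain ⟨c, rfl⟩ := Ideal.mem_span_singleton'.1 hz
  exact ⟨y, hy, c, by ring⟩

theorem surj_combine {R₀ A : Type*} [CommRing R₀] [CommRing A] [Algebra R₀ A] {s s' : R₀}
    {g p u φ f c p' u' φ' : A} (h : s • g = p + (u + f * c) + φ) (h' : s' • c = p' + u' + φ') :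
    (s' * s) • g = (s' • p + f * p') + (s' • u + f * u') + (s' • φ + f * φ') := by
  rw [mul_smul, h]
  simp only [Algebra.smul_def] at h' ⊢
  linear_combination f * h'

/-- The abstract surjectivity lemma (noetherian induction on the ideal `b`). -/
theorem surj {R₀ A : Type*} [CommRing R₀] [IsDomain R₀] [CommRing A] [Algebra R₀ A]
    [IsNoetherianRing A] (P : ℕ → Submodule R₀ A) (F : ℕ → Ideal A) (x : ℝ) (hx : 0 < x)
    (Pmono : Monotone P) (Pmul : ∀ a b f g, f ∈ P a → g ∈ P b → f * g ∈ P (a + b))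
    (Pex : ∀ f, ∃ n, f ∈ P n) (Fanti : Antitone F)
    (Fmul : ∀ s t f g, f ∈ F s → g ∈ F t → f * g ∈ F (s + t))
    (hprime : ∀ p : Ideal A, p.IsPrime → SurjC P F x p ∨
      ∃ (Q : A) (d e : ℕ), Q ∉ p ∧ Q ∈ P d ∧ Q ∈ F e ∧ x * d ≤ e ∧ 0 < e)
    (b : Ideal A) : SurjC P F x b := by
  induction b using (wellFounded_gt (α := Ideal A)).induction with
  | _ b ih =>
  by_cases htop : b = ⊤
  · intro x' _
    refine ⟨0, fun n _ t _ g => ⟨1, one_ne_zero, 0, (P n).zero_mem, g, ?_, 0, (F t).zero_mem, ?_⟩⟩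
    · rw [htop]; trivial
    · simp
  by_cases hp : b.IsPrime
  · rcases hprime b hp with h | ⟨Q, d, e, hQb, hQP, hQF, hde, he⟩
    · exact h
    intro x' hx'
    obtain ⟨N₀, hN₀⟩ := ih _ (surj_lt_sup hQb) x' hx'
    have key : ∀ t n : ℕ, (t : ℝ) ≤ x' * n → (t : ℝ) + x * N₀ ≤ x * n → ∀ g : A,
        ∃ s : R₀, s ≠ 0 ∧ ∃ p ∈ P n, ∃ u ∈ b, ∃ φ ∈ F t, s • g = p + u + φ := by
      intro t
      induction t using Nat.strong_induction_on with
      | _ t iht =>
      intro n h1 h2 g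
      have ht0 : (0 : ℝ) ≤ t := Nat.cast_nonneg t
      have hn : N₀ ≤ n := by
        have : (N₀ : ℝ) ≤ n := le_of_mul_le_mul_left (by linarith) hx
        exact_mod_cast this
      obtain ⟨s, hs, p, hpP, u, hu, φ, hφ, hg⟩ := hN₀ n hn t h1 g
      obtain ⟨u₀, hu₀, c, rfl⟩ := surj_mem_sup hu
      by_cases hte : t ≤ e
      · refine ⟨s, hs, p, hpP, u₀, hu₀, φ + Q * c,
          (F t).add_mem hφ ((F t).mul_mem_right _ (Fanti hte hQF)), ?_⟩
        rw [hg]; ring
      · have hlt : e < t := not_le.1 hte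
        have hlt' : (e : ℝ) < t := by exact_mod_cast hlt
        have hN : (0 : ℝ) ≤ x * N₀ := by positivity
        have hdn : d ≤ n := by
          have : (d : ℝ) ≤ n := le_of_mul_le_mul_left (by linarith) hx
          exact_mod_cast this
        have hd0 : (0 : ℝ) ≤ d := Nat.cast_nonneg d
        obtain ⟨s', hs', p', hp', u', hu', φ', hφ', hc⟩ := iht (t - e) (by omega) (n - d)
          (by rw [Nat.cast_sub hlt.le, Nat.cast_sub hdn]; nlinarith)
          (by rw [Nat.cast_sub hlt.le, Nat.cast_sub hdn]; nlinarith) c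
        refine ⟨s' * s, mul_ne_zero hs' hs, _, ?_, _, ?_, _, ?_, surj_combine hg hc⟩
        · refine (P n).add_mem ((P n).smul_mem _ hpP) ?_
          have := Pmul _ _ _ _ hQP hp'
          rwa [Nat.add_sub_cancel' hdn] at this
        · exact b.add_mem (surj_smul_mem b _ hu₀) (b.mul_mem_left _ hu')
        · refine (F t).add_mem (surj_smul_mem _ _ hφ) ?_
          have := Fmul _ _ _ _ hQF hφ'
          rwa [Nat.add_sub_cancel' hlt.le] at this
    obtain ⟨N, hN⟩ := exists_nat_ge (x * N₀ / (x - x'))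
    refine ⟨N, fun n hn t ht g => key t n ht ?_ g⟩
    have h1 : x * N₀ / (x - x') ≤ n := hN.trans (by exact_mod_cast hn)
    rw [div_le_iff₀ (by linarith)] at h1
    nlinarith
  · obtain ⟨f, hf, f', hf', hff⟩ := (Ideal.not_isPrime_iff.1 hp).resolve_left htop
    set b₂ : Ideal A := Submodule.comap (LinearMap.mul A A f) b with hb₂
    have hmem : ∀ u, u ∈ b₂ ↔ f * u ∈ b := fun u => Iff.rfl
    have hlt₂ : b < b₂ := by
      refine lt_of_le_of_ne (fun u hu => (hmem u).2 (b.mul_mem_left _ hu)) fun h => hf' ?_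
      rw [h]
      exact (hmem f').2 hff
    obtain ⟨d, hd⟩ := Pex f
    intro x' hx'
    obtain ⟨N₁, hN₁⟩ := ih _ (surj_lt_sup hf) x' hx'
    obtain ⟨N₂, hN₂⟩ := ih _ hlt₂ ((x' + x) / 2) (by linarith)
    obtain ⟨N₃, hN₃⟩ := exists_nat_ge ((x' + x) / 2 * d / ((x - x') / 2))
    refine ⟨N₁ + N₂ + N₃ + d, fun n hn t ht g => ?_⟩
    obtain ⟨s, hs, p, hpP, u, hu, φ, hφ, hg⟩ := hN₁ n (by omega) t ht g
    obtain ⟨u₀, hu₀, c, rfl⟩ := surj_mem_sup hu
    have hdn : d ≤ n := by omega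
    have h1 : (x' + x) / 2 * d / ((x - x') / 2) ≤ n :=
      hN₃.trans (by exact_mod_cast (show N₃ ≤ n by omega))
    rw [div_le_iff₀ (by linarith)] at h1
    obtain ⟨s', hs', p', hp', u', hu', φ', hφ', hc⟩ := hN₂ (n - d) (by omega) t
      (by rw [Nat.cast_sub hdn]; nlinarith) c
    refine ⟨s' * s, mul_ne_zero hs' hs, _, ?_, _, ?_, _, ?_, surj_combine hg hc⟩
    · refine (P n).add_mem ((P n).smul_mem _ hpP) ?_
      have := Pmul _ _ _ _ hd hp'
      rwa [Nat.add_sub_cancel' hdn] at this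
    · exact b.add_mem (surj_smul_mem b _ hu₀) ((hmem u').1 hu')
    · exact (F t).add_mem (surj_smul_mem _ _ hφ) ((F t).mul_mem_left _ hφ')

end Crest.Agent.R11
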