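import Crest.Agent.R11.Basic

set_option autoImplicit false

namespace Crest.Agent.R11
open MvPolynomial

theorem tau_comm_of_X {σ : Type*} (φ : MvPolynomial σ ℂ →ₐ[ℂ] MvPolynomial σ ℂ)
    (D E : Derivation ℂ (MvPolynomial σ ℂ) (MvPolynomial σ ℂ))
    (h : ∀ j, φ (D (X j)) = E (φ (X j))) (f : MvPolynomial σ ℂ) : φ (D f) = E (φ f) := by
  induction f using MvPolynomial.induction_on with
  | C a => rw [derivation_C, map_zero, algHom_C, algebraMap_eq, derivation_C]
  | add p q hp hq => simp only [map_add, hp, hq]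
  | mul_X p j hp => simp only [Derivation.leibniz, smul_eq_mul, map_add, map_mul, hp, h]

theorem tau_pderiv_succ {m : ℕ} (c : Fin m → Polynomial ℂ) (i : Fin m)
    (f : MvPolynomial (Fin (m + 1)) ℂ) :
    tau c (pderiv i.succ f) = pderiv i.succ (tau c f) := by
  refine tau_comm_of_X (tau c) _ _ (fun j => ?_) f
  refine Fin.cases ?_ (fun k => ?_) j
  · simp [pderiv_X, (Fin.succ_ne_zero _).symm]
  · by_cases hk : k = i
    · simp [pderiv_X, hk, Derivation.map_aeval, (Fin.succ_ne_zero _).symm]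
    · simp [pderiv_X, hk, Derivation.map_aeval, (Fin.succ_ne_zero _).symm]

theorem tau_delta {m : ℕ} (Q : Fin m → ℂ) (c : Fin m → Polynomial ℂ)
    (f : MvPolynomial (Fin (m + 1)) ℂ) :
    tau c (delta Q f) = (1 + X 0) * pderiv 0 (tau c f) +
      ∑ i : Fin m, Polynomial.aeval (X 0 : MvPolynomial (Fin (m + 1)) ℂ)
        (Polynomial.C (Q i) - (1 + Polynomial.X) * Polynomial.derivative (c i)) *
          pderiv i.succ (tau c f) := by
  have := tau_comm_of_X (tau c) (delta Q)
    ((1 + X 0 : MvPolynomial (Fin (m + 1)) ℂ) • pderiv 0 +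
      ∑ i : Fin m, (Polynomial.aeval (X 0 : MvPolynomial (Fin (m + 1)) ℂ)
        (Polynomial.C (Q i) - (1 + Polynomial.X) * Polynomial.derivative (c i))) •
          pderiv i.succ) (fun j => ?_) f
  · rw [this]
    simp only [Derivation.add_apply, Derivation.smul_apply, derivation_sum_apply, smul_eq_mul]
  simp only [Derivation.add_apply, Derivation.smul_apply, derivation_sum_apply, smul_eq_mul]
  refine Fin.cases ?_ (fun k => ?_) j
  · simp [pderiv_X, (Fin.succ_ne_zero _).symm]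
  · rw [Finset.sum_eq_single k]
    · simp [pderiv_X, Derivation.map_aeval, (Fin.succ_ne_zero _).symm, Fin.succ_ne_zero]
    · intro i _ hi
      simp [pderiv_X, Derivation.map_aeval, (Fin.succ_ne_zero _).symm, hi.symm]
    · simp

/-- In the local coordinates, `D i` lowers the order by at most `vw ω i`. -/
theorem tau_DD_mem {m : ℕ} (Q : Fin m → ℂ) (ω : Fin (m + 1) → ℕ) (hω : ∀ i, 0 < ω i)
    (c : Fin m → Polynomial ℂ)
    (hc : ∀ i, Polynomial.X ^ (ω i.succ - 1) ∣
      Polynomial.C (Q i) - (1 + Polynomial.X) * Polynomial.derivative (c i))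
    (t : ℕ) (f : MvPolynomial (Fin (m + 1)) ℂ) (hf : tau c f ∈ Ord (vw ω) t) (i : Fin (m + 1)) :
    tau c (DD Q i f) ∈ Ord (vw ω) (t - vw ω i) := by
  refine Fin.cases ?_ (fun k => ?_) i
  · rw [DD_zero, tau_delta]
    refine Ideal.add_mem _ (Ideal.mul_mem_left _ _ (pderiv_mem_Ord 0 hf))
      (Ideal.sum_mem _ fun j _ => ?_)
    obtain ⟨r, hr⟩ := hc j
    rw [hr, map_mul, map_pow, Polynomial.aeval_X, mul_comm _ (Polynomial.aeval _ r), mul_assoc]
    refine Ideal.mul_mem_left _ _ ?_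
    have h1 := Ord_mul (Ord_pow (X_mem_Ord (vw ω) 0) (ω j.succ - 1)) (pderiv_mem_Ord j.succ hf)
    refine Ord_anti _ ?_ h1
    have := hω j.succ
    simp only [vw_zero, vw_succ]
    omega
  · rw [DD_succ, tau_pderiv_succ]
    exact pderiv_mem_Ord _ hf

theorem tau_wordD_mem {m : ℕ} (Q : Fin m → ℂ) (ω : Fin (m + 1) → ℕ) (hω : ∀ i, 0 < ω i)
    (c : Fin m → Polynomial ℂ)
    (hc : ∀ i, Polynomial.X ^ (ω i.succ - 1) ∣
      Polynomial.C (Q i) - (1 + Polynomial.X) * Polynomial.derivative (c i))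
    (t : ℕ) (f : MvPolynomial (Fin (m + 1)) ℂ) (hf : tau c f ∈ Ord (vw ω) t)
    (β : List (Fin (m + 1))) :
    tau c (wordD (DD Q) β f) ∈ Ord (vw ω) (t - wt (vw ω) β) := by
  induction β with
  | nil => simpa using hf
  | cons i β ih =>
    have := tau_DD_mem Q ω hω c hc _ _ ih i
    rw [wordD_cons, wt_cons, add_comm (vw ω i), ← Nat.sub_sub]
    exact this

theorem tau_surjective {m : ℕ} (c : Fin m → Polynomial ℂ) : Function.Surjective (tau c) := by
  have h0 : tau c (X 0 - 1) = X 0 := by simp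
  intro g
  induction g using MvPolynomial.induction_on with
  | C a => exact ⟨C a, algHom_C _ _⟩
  | add p q hp hq =>
    obtain ⟨p', rfl⟩ := hp
    obtain ⟨q', rfl⟩ := hq
    exact ⟨p' + q', map_add _ _ _⟩
  | mul_X p j hp =>
    obtain ⟨p', rfl⟩ := hp
    refine Fin.cases ⟨p' * (X 0 - 1), by rw [map_mul, h0]⟩ (fun k => ?_) j
    refine ⟨p' * (X k.succ - Polynomial.aeval (X 0 - 1) (c k)), ?_⟩
    rw [map_mul, map_sub, ← Polynomial.aeval_algHom_apply, h0, tau_X_succ, add_sub_cancel_right]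

theorem constantCoeff_tau {m : ℕ} (c : Fin m → Polynomial ℂ) (f : MvPolynomial (Fin (m + 1)) ℂ) :
    constantCoeff (tau c f) = eval (pt c) f := by
  induction f using MvPolynomial.induction_on with
  | C a => rw [algHom_C, algebraMap_eq, constantCoeff_C, eval_C]
  | add p q hp hq => simp only [map_add, hp, hq]
  | mul_X p j hp =>
    simp only [map_mul, hp, eval_X]
    congr 1
    refine Fin.cases (by simp [pt]) (fun k => ?_) j
    obtain ⟨r, hr⟩ := Polynomial.X_dvd_sub_C (p := c k)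
    rw [tau_X_succ, sub_eq_iff_eq_add.1 hr]
    simp [pt]

theorem tau_mem_Ord_one {m : ℕ} (ω : Fin (m + 1) → ℕ) (hω : ∀ i, 0 < ω i)
    (c : Fin m → Polynomial ℂ) (f : MvPolynomial (Fin (m + 1)) ℂ) (hf : eval (pt c) f = 0) :
    tau c f ∈ Ord (vw ω) 1 := by
  refine mem_Ord.2 fun d hd => ?_
  have hd0 : d = 0 := by
    ext j
    by_contra hj
    have h1 := Finsupp.le_weight_of_ne_zero' (vw ω) (s := j) (f := d) hj
    have h2 := vw_pos hω j
    omega
  rw [hd0, ← hf, ← constantCoeff_tau]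
  rfl

theorem Deg_pow {σ : Type*} {w : σ → ℕ} {a : ℕ} {f : MvPolynomial σ ℂ} (hf : f ∈ Deg w a)
    (n : ℕ) : f ^ n ∈ Deg w (n * a) := by
  induction n with
  | zero => simpa using C_mem_Deg w 0 1
  | succ n ih => rw [pow_succ, add_mul, one_mul]; exact Deg_mul ih hf

theorem Deg_prod {σ ι : Type*} {w : σ → ℕ} (s : Finset ι) {a : ι → ℕ}
    {f : ι → MvPolynomial σ ℂ} (hf : ∀ i, f i ∈ Deg w (a i)) :
    ∏ i ∈ s, f i ∈ Deg w (∑ i ∈ s, a i) := by
  classical
  induction s using Finset.induction_on with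
  | empty => simpa using C_mem_Deg w 0 1
  | insert i s hi ih =>
    rw [Finset.prod_insert hi, Finset.sum_insert hi]
    exact Deg_mul (hf i) ih

/-- An inverse of `tau c` modulo `X 0`. -/
noncomputable def tauInv {m : ℕ} (c : Fin m → Polynomial ℂ) :
    MvPolynomial (Fin (m + 1)) ℂ →ₐ[ℂ] MvPolynomial (Fin (m + 1)) ℂ :=
  aeval (Fin.cons 0 (fun i => X i.succ - C ((c i).coeff 0)) :
    Fin (m + 1) → MvPolynomial (Fin (m + 1)) ℂ)

theorem X_dvd_tau_tauInv {m : ℕ} (c : Fin m → Polynomial ℂ) (h : MvPolynomial (Fin (m + 1)) ℂ) :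
    X 0 ∣ h - tau c (tauInv c h) := by
  induction h using MvPolynomial.induction_on with
  | C a => rw [algHom_C, algebraMap_eq, algHom_C, algebraMap_eq, sub_self]; exact dvd_zero _
  | add p q hp hq =>
    rw [map_add, map_add, add_sub_add_comm]
    exact dvd_add hp hq
  | mul_X p j hp =>
    have h1 : X 0 ∣ X j - tau c (tauInv c (X j)) := by
      refine Fin.cases (by simp [tauInv]) (fun k => ?_) j
      obtain ⟨r, hr⟩ := Polynomial.X_dvd_sub_C (p := c k)
      refine ⟨-Polynomial.aeval (X 0) r, ?_⟩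
      have h2 : tauInv c (X k.succ) = X k.succ - C ((c k).coeff 0) := by simp [tauInv]
      have h3 := congrArg (Polynomial.aeval (X 0 : MvPolynomial (Fin (m + 1)) ℂ)) hr
      rw [map_sub, map_mul, Polynomial.aeval_X, Polynomial.aeval_C, algebraMap_eq] at h3
      rw [h2, map_sub, tau_X_succ, algHom_C, algebraMap_eq]
      linear_combination -h3
    have e : p * X j - tau c (tauInv c (p * X j)) =
        (p - tau c (tauInv c p)) * X j + tau c (tauInv c p) * (X j - tau c (tauInv c (X j))) := by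
      rw [map_mul, map_mul]; ring
    rw [e]
    exact dvd_add (hp.mul_right _) (h1.mul_left _)

theorem tauInv_monomial_mem {m : ℕ} (ω : Fin (m + 1) → ℕ) (c : Fin m → Polynomial ℂ)
    (d : Fin (m + 1) →₀ ℕ) (a : ℂ) :
    tauInv c (monomial d a) ∈ Deg ω (Finsupp.weight (vw ω) d) := by
  rw [tauInv, aeval_monomial, algebraMap_eq, C_mul', Finsupp.prod_fintype _ _ (by simp),
    weight_eq_sum]
  refine Submodule.smul_mem _ _ (Deg_prod _ fun j => Deg_pow ?_ _)
  refine Fin.cases (Submodule.zero_mem _) (fun k => ?_) j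
  exact Submodule.sub_mem _ (X_mem_Deg ω k.succ) (C_mem_Deg _ _ _)

/-- Direct interpolation at one point modulo `y - 1`. -/
theorem direct {m : ℕ} (ω : Fin (m + 1) → ℕ) (c : Fin m → Polynomial ℂ) (t n : ℕ)
    (htn : t ≤ n + 1) (g : MvPolynomial (Fin (m + 1)) ℂ) :
    ∃ p ∈ Deg ω n, ∃ u, tau c (g - p - (X 0 - 1) * u) ∈ Ord (vw ω) t := by
  have key : ∀ h : MvPolynomial (Fin (m + 1)) ℂ,
      ∃ p ∈ Deg ω n, ∃ u, h - tau c p - X 0 * u ∈ Ord (vw ω) t := by
    intro h
    induction h using MvPolynomial.induction_on' with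
    | monomial d a =>
      by_cases hd : Finsupp.weight (vw ω) d ≤ n
      · obtain ⟨u, hu⟩ := X_dvd_tau_tauInv c (monomial d a)
        refine ⟨_, Deg_mono ω hd (tauInv_monomial_mem ω c d a), u, ?_⟩
        rw [hu, sub_self]
        exact Ideal.zero_mem _
      · refine ⟨0, Submodule.zero_mem _, 0, ?_⟩
        rw [map_zero, mul_zero, sub_zero, sub_zero]
        exact monomial_mem_Ord a (by omega)
    | add f g hf hg =>
      obtain ⟨p, hp, u, hu⟩ := hf
      obtain ⟨q, hq, v, hv⟩ := hg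
      refine ⟨p + q, Submodule.add_mem _ hp hq, u + v, ?_⟩
      convert Ideal.add_mem _ hu hv using 1
      rw [map_add]; ring
  obtain ⟨p, hp, u, hu⟩ := key (tau c g)
  obtain ⟨u, rfl⟩ := tau_surjective c u
  refine ⟨p, hp, u, ?_⟩
  have h0 : tau c (X 0 - 1) = X 0 := by simp
  rwa [map_sub, map_sub, map_mul, h0]

/-- The auxiliary polynomial, by a dimension count. -/
theorem exists_P {m K : ℕ} (ω : Fin (m + 1) → ℕ) (hω : ∀ i, 0 < ω i)
    (c : Fin K → Fin m → Polynomial ℂ) (R e : ℕ) (hcount : K * cnt (vw ω) e < cnt ω R) :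
    ∃ P, P ≠ 0 ∧ P ∈ Deg ω R ∧ ∀ k, tau (c k) P ∈ Ord (vw ω) (e + 1) := by
  classical
  let S : Set (Fin (m + 1) →₀ ℕ) := {a | Finsupp.weight (vw ω) a ≤ e}
  let T : Set (Fin (m + 1) →₀ ℕ) := {a | Finsupp.weight ω a ≤ R}
  have hS : Finite S := (cnt_finite (vw_pos hω) e).to_subtype
  have hT : Finite T := (cnt_finite hω R).to_subtype
  have := Fintype.ofFinite S
  have := Fintype.ofFinite T
  let b : Module.Basis T ℂ (Deg ω R) := basisRestrictSupport ℂ T
  have : FiniteDimensional ℂ (Deg ω R) := Module.Finite.of_basis b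
  let L : Deg ω R →ₗ[ℂ] (Fin K × S → ℂ) := LinearMap.pi fun x =>
    (lcoeff ℂ x.2.1).comp ((tau (c x.1)).toLinearMap.comp (Deg ω R).subtype)
  have hlt : Module.finrank ℂ (Fin K × S → ℂ) < Module.finrank ℂ (Deg ω R) := by
    rw [Module.finrank_eq_card_basis b, Module.finrank_fintype_fun_eq_card, Fintype.card_prod,
      Fintype.card_fin, Fintype.card_eq_nat_card, Fintype.card_eq_nat_card,
      Nat.card_coe_set_eq, Nat.card_coe_set_eq]
    exact hcount
  obtain ⟨P, hP, hP0⟩ := (Submodule.ne_bot_iff _).1 (LinearMap.ker_ne_bot_of_finrank_lt (f := L) hlt)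
  refine ⟨P.1, fun h => hP0 (Subtype.ext h), P.2, fun k => mem_Ord.2 fun d hd => ?_⟩
  exact congrFun (LinearMap.mem_ker.1 hP) (k, ⟨d, Nat.lt_succ_iff.1 hd⟩)

end Crest.Agent.R11
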