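import Crest.Agent.R11.Product
import Crest.Agent.R11.Tau

set_option autoImplicit false

namespace Crest.Agent.R11
open MvPolynomial

theorem exists_eta {m K : ℕ} (ω0 S Cst : ℕ) (hC : 1 ≤ Cst) (x : ℝ) (hx0 : 0 < x)
    (hK : (K : ℝ) * ω0 * (x + (m + 1) / Cst) ^ (m + 1) < 1) :
    ∃ η : ℕ, 0 < η ∧
      K * ω0 * (⌈x * (Cst * η : ℕ)⌉₊ + (m + 1) * η + S) ^ (m + 1) < (Cst * η + 1) ^ (m + 1) := by
  have hcont : ContinuousAt (fun y : ℝ => (K : ℝ) * ω0 * (x + (m + 1) / Cst + y) ^ (m + 1)) 0 := by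
    fun_prop
  have hev := hcont.eventually_lt (continuousAt_const (y := (1 : ℝ))) (by simpa using hK)
  obtain ⟨δ, hδ, hδ'⟩ := Metric.eventually_nhds_iff.1 hev
  have h1 := @hδ' (δ / 2) (by rw [Real.dist_eq, sub_zero, abs_of_pos (by positivity)]; linarith)
  obtain ⟨η, hη⟩ := exists_nat_gt ((1 + S) / (δ / 2))
  have hηpos : (0 : ℝ) < η := lt_trans (by positivity) hη
  have hCR : (1 : ℝ) ≤ Cst := by exact_mod_cast hC
  refine ⟨η, by exact_mod_cast hηpos, ?_⟩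
  have hR : (0 : ℝ) < Cst * η := by positivity
  have h2 : ((⌈x * (Cst * η : ℕ)⌉₊ + (m + 1) * η + S : ℕ) : ℝ) ≤
      (Cst * η) * (x + (m + 1) / Cst + δ / 2) := by
    have h3 := (Nat.ceil_lt_add_one (show 0 ≤ x * (Cst * η : ℕ) by positivity)).le
    have h4 : (1 + S : ℝ) ≤ (Cst * η) * (δ / 2) := by
      rw [div_lt_iff₀ (by positivity)] at hη
      nlinarith [mul_pos hηpos hδ]
    have h5 : (Cst * η : ℝ) * ((m + 1) / Cst) = (m + 1) * η := by field_simp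
    push_cast at h3 ⊢
    nlinarith
  have h6 : ((K * ω0 * (⌈x * (Cst * η : ℕ)⌉₊ + (m + 1) * η + S) ^ (m + 1) : ℕ) : ℝ) <
      (((Cst * η + 1) ^ (m + 1) : ℕ) : ℝ) := by
    rw [Nat.cast_mul, Nat.cast_pow, Nat.cast_pow]
    calc ((K * ω0 : ℕ) : ℝ) * ((⌈x * (Cst * η : ℕ)⌉₊ + (m + 1) * η + S : ℕ) : ℝ) ^ (m + 1)
        ≤ ((K * ω0 : ℕ) : ℝ) * ((Cst * η) * (x + (m + 1) / Cst + δ / 2)) ^ (m + 1) := by
          gcongr
      _ = (Cst * η) ^ (m + 1) * ((K : ℝ) * ω0 * (x + (m + 1) / Cst + δ / 2) ^ (m + 1)) := by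
          rw [mul_pow]; push_cast; ring
      _ < (Cst * η) ^ (m + 1) * 1 := by gcongr
      _ ≤ ((Cst * η + 1 : ℕ) : ℝ) ^ (m + 1) := by
          rw [mul_one]; push_cast; gcongr; linarith
  exact_mod_cast h6

theorem comax {m : ℕ} (ω : Fin (m + 1) → ℕ) (hω : ∀ i, 0 < ω i) (c : Fin m → Polynomial ℂ)
    (f : MvPolynomial (Fin (m + 1)) ℂ) (hf : eval (pt c) f ≠ 0) (t : ℕ) :
    ∃ u φ, tau c φ ∈ Ord (vw ω) t ∧ 1 = f * u + φ := by
  have h1 : tau c (1 - C (eval (pt c) f)⁻¹ * f) ∈ Ord (vw ω) 1 :=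
    tau_mem_Ord_one ω hω c _ (by simp [hf])
  obtain ⟨u, hu⟩ := sub_dvd_pow_sub_pow 1 (1 - C (eval (pt c) f)⁻¹ * f) t
  refine ⟨C (eval (pt c) f)⁻¹ * u, (1 - C (eval (pt c) f)⁻¹ * f) ^ t, ?_, ?_⟩
  · rw [map_pow]; simpa using Ord_pow h1 t
  · rw [one_pow] at hu
    linear_combination hu

theorem crt {A κ : Type*} [CommRing A] (b : Ideal A) (F : κ → Ideal A) (s : Finset κ)
    (h : ∀ k ∈ s, ∃ u ∈ b, ∃ φ ∈ F k, 1 = u + φ) :
    ∃ u ∈ b, ∃ φ, (∀ k ∈ s, φ ∈ F k) ∧ 1 = u + φ := by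
  classical
  induction s using Finset.induction_on with
  | empty => exact ⟨0, b.zero_mem, 1, by simp, by simp⟩
  | insert k s hk ih =>
    obtain ⟨u, hu, φ, hφ, e⟩ := ih fun k' hk' => h k' (Finset.mem_insert_of_mem hk')
    obtain ⟨u', hu', φ', hφ', e'⟩ := h k (Finset.mem_insert_self _ _)
    refine ⟨u + u' * φ, b.add_mem hu (b.mul_mem_right _ hu'), φ' * φ, ?_, ?_⟩
    · intro k' hk'
      rcases Finset.mem_insert.1 hk' with rfl | hk'
      · exact Ideal.mul_mem_right _ _ hφ'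
      · exact Ideal.mul_mem_left _ _ (hφ k' hk')
    · linear_combination e + φ * e'

/-- The zero estimate: polynomials of weighted degree `≤ n` interpolate all jets of weight
`< x' n` at the `K` points. -/
theorem zero_estimate {m K : ℕ} (hm : 0 < m) (Q : Fin m → ℂ) (hQ : ∀ i, Q i ≠ 0)
    (ω : Fin (m + 1) → ℕ) (hω : ∀ i, 0 < ω i) (c : Fin K → Fin m → Polynomial ℂ)
    (hc : ∀ k i, Polynomial.X ^ (ω i.succ - 1) ∣
      Polynomial.C (Q i) - (1 + Polynomial.X) * Polynomial.derivative (c k i))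
    (hinj : ∀ i, Function.Injective (fun k => (c k i).coeff 0))
    (Cst : ℕ) (hC : 1 ≤ Cst) (hC0 : Cst < ω 0)
    (hhier : ∀ l i : Fin (m + 1), l < i → Cst ^ (m + 1) * vw ω l < vw ω i)
    (x : ℝ) (hx0 : 0 < x) (hx1 : x ≤ 1)
    (hK : (K : ℝ) * ω 0 * (x + (m + 1) / Cst) ^ (m + 1) < 1) (x' : ℝ) (hx' : x' < x) :
    ∃ N : ℕ, ∀ n : ℕ, N ≤ n → ∀ t : ℕ, (t : ℝ) ≤ x' * n →
      ∀ (k : Fin K) (α : Fin (m + 1) →₀ ℕ), ∃ f ∈ Deg ω n,
        ∀ (k' : Fin K) (α' : Fin (m + 1) →₀ ℕ), Finsupp.weight (vw ω) α' < t →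
          coeff α' (tau (c k') f) = if k' = k ∧ α' = α then 1 else 0 := by
  classical
  obtain ⟨η, hη, hcount⟩ := exists_eta (m := m) (K := K) (ω 0) (∑ i, vw ω i) Cst hC x hx0 hK
  set R := Cst * η with hR
  set e := ⌈x * (R : ℕ)⌉₊ + (m + 1) * η with he
  have hprod : ∏ i, ω i = ω 0 * ∏ i, vw ω i := by
    simp [Fin.prod_univ_succ]
  have hcnt : K * cnt (vw ω) e < cnt ω R := by
    have h1 := cnt_upper (vw_pos hω) e
    have h2 := cnt_lower hω R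
    rw [Fintype.card_fin] at h1 h2
    have h3 : (m + 1).factorial * (∏ i, ω i) * (K * cnt (vw ω) e) <
        (m + 1).factorial * (∏ i, ω i) * cnt ω R := by
      refine lt_of_lt_of_le (lt_of_le_of_lt ?_ hcount) h2
      calc (m + 1).factorial * (∏ i, ω i) * (K * cnt (vw ω) e)
          = K * ω 0 * ((m + 1).factorial * (∏ i, vw ω i) * cnt (vw ω) e) := by rw [hprod]; ring
        _ ≤ _ := Nat.mul_le_mul_left _ h1
    exact Nat.lt_of_mul_lt_mul_left h3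
  obtain ⟨P, hP0, hP, hPO⟩ := exists_P ω hω c R e hcnt
  let Fk : Fin K → ℕ → Ideal (MvPolynomial (Fin (m + 1)) ℂ) :=
    fun k t => (Ord (vw ω) t).comap (tau (c k))
  let F : ℕ → Ideal (MvPolynomial (Fin (m + 1)) ℂ) := fun t => ⨅ k, Fk k t
  have memF : ∀ t f, f ∈ F t ↔ ∀ k, tau (c k) f ∈ Ord (vw ω) t := fun t f => by
    simp only [F, Fk, Ideal.mem_iInf, Ideal.mem_comap]
  have hsep : ∀ (i : Fin m) (k k' : Fin K), k' ≠ k →
      eval (pt (c k')) (X i.succ - C (pt (c k) i.succ) : MvPolynomial (Fin (m + 1)) ℂ) ≠ 0 := by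
    intro i k k' hk h
    simp only [map_sub, eval_X, eval_C, pt, Fin.cons_succ, sub_eq_zero] at h
    exact hk (hinj i h)
  have hmain : SurjC (Deg ω) F x ⊥ := by
    refine surj (Deg ω) F x hx0 (Deg_mono ω) (fun a b f g => Deg_mul) (Deg_exists ω)
      (fun s t hst f hf => (memF _ _).2 fun k => Ord_anti _ hst ((memF _ _).1 hf k))
      (fun s t f g hf hg => (memF _ _).2 fun k => by
        rw [map_mul]; exact Ord_mul ((memF _ _).1 hf k) ((memF _ _).1 hg k)) ?_ ⊥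
    intro p hp
    by_cases hw : ∀ β, wt (vw ω) β ≤ (m + 1) * η → wordD (DD Q) β P ∈ p
    · left
      intro y hy
      refine ⟨0, fun n _ t ht g => ⟨1, one_ne_zero, ?_⟩⟩
      have htn : t ≤ n + 1 := by
        have : (t : ℝ) ≤ n := ht.trans (mul_le_of_le_one_left (Nat.cast_nonneg _) (by linarith))
        have : t ≤ n := by exact_mod_cast this
        omega
      have hco : ∀ k, (∃ f ∈ p, eval (pt (c k)) f ≠ 0) → ∃ u ∈ p, ∃ φ ∈ Fk k t, 1 = u + φ := by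
        rintro k ⟨f, hfp, hf⟩
        obtain ⟨u, φ, h1, h2⟩ := comax ω hω (c k) f hf t
        exact ⟨f * u, p.mul_mem_right _ hfp, φ, h1, h2⟩
      by_cases hall : ∀ k, ∃ f ∈ p, eval (pt (c k)) f ≠ 0
      · obtain ⟨u, hu, φ, hφ, e1⟩ := crt p (fun k => Fk k t) Finset.univ fun k _ => hco k (hall k)
        refine ⟨0, Submodule.zero_mem _, u * g, p.mul_mem_right _ hu, φ * g,
          Ideal.mul_mem_right _ _ ((memF _ _).2 fun k => hφ k (Finset.mem_univ _)), ?_⟩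
        rw [one_smul]
        linear_combination g * e1
      · push Not at hall
        obtain ⟨k₀, hk₀⟩ := hall
        obtain ⟨hy0, i, hi⟩ := product Q hQ ω hω Cst η hC hη hC0 hhier P hP0 hP (pt (c k₀)) rfl
          p hp hk₀ hw
        obtain ⟨u, hu, φ, hφ, e1⟩ := crt p (fun k => Fk k t) (Finset.univ.erase k₀) fun k hk =>
          hco k ⟨_, hi, hsep i k₀ k (Finset.mem_erase.1 hk).1⟩
        obtain ⟨p₀, hp₀, u₀, hψ⟩ := direct ω (c k₀) t n htn g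
        refine ⟨p₀, hp₀, (X 0 - 1) * u₀ + u * (g - p₀ - (X 0 - 1) * u₀),
          p.add_mem (p.mul_mem_right _ hy0) (p.mul_mem_right _ hu),
          φ * (g - p₀ - (X 0 - 1) * u₀), (memF _ _).2 fun k => ?_, ?_⟩
        · rw [map_mul]
          by_cases hk : k = k₀
          · subst hk; exact Ideal.mul_mem_left _ _ hψ
          · exact Ideal.mul_mem_right _ _ (hφ k (Finset.mem_erase.2 ⟨hk, Finset.mem_univ _⟩))
        · rw [one_smul]
          linear_combination (g - p₀ - (X 0 - 1) * u₀) * e1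
    · right
      push Not at hw
      obtain ⟨β, hβ, hβp⟩ := hw
      refine ⟨wordD (DD Q) β P, R, ⌈x * (R : ℕ)⌉₊ + 1, hβp, wordD_mem_Deg Q β hP,
        (memF _ _).2 fun k => ?_, ?_, Nat.succ_pos _⟩
      · exact Ord_anti _ (by omega) (tau_wordD_mem Q ω hω (c k) (hc k) _ P (hPO k) β)
      · push_cast
        have := Nat.le_ceil (x * (R : ℕ))
        linarith
  obtain ⟨N, hN⟩ := hmain x' hx'
  refine ⟨N, fun n hn t ht k α => ?_⟩
  obtain ⟨g₀, hg₀⟩ := tau_surjective (c k) (monomial α 1)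
  obtain ⟨u, hu, φ, hφ, e1⟩ := crt (Fk k t) (fun k => Fk k t) (Finset.univ.erase k) fun k' hk' => by
    have h1 : tau (c k) (X (Fin.succ ⟨0, hm⟩) - C (pt (c k) (Fin.succ ⟨0, hm⟩))) ∈ Ord (vw ω) 1 :=
      tau_mem_Ord_one ω hω _ _ (by simp)
    obtain ⟨u, φ, h2, h3⟩ := comax ω hω (c k')
      ((X (Fin.succ ⟨0, hm⟩) - C (pt (c k) (Fin.succ ⟨0, hm⟩))) ^ t)
      (by rw [map_pow]; exact pow_ne_zero _ (hsep _ k k' (Finset.mem_erase.1 hk').1)) t
    refine ⟨_, Ideal.mul_mem_right _ _ ?_, φ, h2, h3⟩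
    rw [Ideal.mem_comap, map_pow]
    simpa using Ord_pow h1 t
  obtain ⟨s, hs, p, hp, u', hu', ψ, hψ, e2⟩ := hN n hn t ht (g₀ * φ)
  rw [Ideal.mem_bot] at hu'
  refine ⟨s⁻¹ • p, Submodule.smul_mem _ _ hp, fun k' α' hα' => ?_⟩
  have e3 : s⁻¹ • p = g₀ * φ - s⁻¹ • ψ := by
    rw [eq_sub_iff_add_eq, ← smul_add, eq_comm, eq_inv_smul_iff₀ hs, e2, hu', add_zero]
  rw [e3, map_sub, map_smul, coeff_sub, coeff_smul, mem_Ord.1 ((memF _ _).1 hψ k') α' hα',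
    smul_zero, sub_zero]
  by_cases hk : k' = k
  · subst hk
    have e4 : g₀ * φ = g₀ - g₀ * u := by linear_combination g₀ * e1.symm
    have h5 : tau (c k') (g₀ * u) ∈ Ord (vw ω) t := by
      rw [map_mul]; exact Ideal.mul_mem_left _ _ hu
    rw [e4, map_sub, coeff_sub, mem_Ord.1 h5 α' hα', hg₀, coeff_monomial, sub_zero]
    simp [eq_comm]
  · have h5 : tau (c k') (g₀ * φ) ∈ Ord (vw ω) t := by
      rw [map_mul]
      exact Ideal.mul_mem_left _ _ (hφ k' (Finset.mem_erase.2 ⟨hk, Finset.mem_univ _⟩))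
    rw [mem_Ord.1 h5 α' hα', if_neg (fun h => hk h.1)]

end Crest.Agent.R11
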